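import Vale.Agent.P096.III.Word.Defs

/-!
# P096 III word: flattening and the centrality of the prefixes

`avgR_flat`: the markers turn `‖d v pΩ‖²` into at most `‖pΩ‖²`. `pre_central`, `post_central`:
partners of products drift by `2 n σ` in mean square, not `n² σ`.
-/

namespace Vale.Agent.P096.III.Word

open scoped InnerProductSpace
open Vale.Agent.P082 (avg avgR)

universe u

variable {H : Type u} [NormedAddCommGroup H] [InnerProductSpace ℂ H] [CompleteSpace H]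
variable {M N : VonNeumannAlgebra H} {Ω : H}

theorem avgR_add {α : Type*} [Fintype α] (F G : α → ℝ) :
    avgR (fun a => F a + G a) = avgR F + avgR G := by
  simp only [avgR, Finset.sum_add_distrib, mul_add]

theorem avgR_const {α : Type*} [Fintype α] [Nonempty α] (x : ℝ) :
    avgR (fun _ : α => x) = x := by
  unfold avgR
  rw [Finset.sum_const, Finset.card_univ, nsmul_eq_mul, ← mul_assoc,
    inv_mul_cancel₀ (Nat.cast_ne_zero.2 Fintype.card_ne_zero), one_mul]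

omit [CompleteSpace H] in
theorem avgR_inner {α : Type*} [Fintype α] (x : H) (v : α → H) :
    avgR (fun a => (⟪x, v a⟫_ℂ).re) = (⟪x, avg v⟫_ℂ).re := by
  simp [avgR, avg, Complex.mul_re, Complex.re_sum]

omit [CompleteSpace H] in
theorem avgR_inner_left {α : Type*} [Fintype α] (x : H) (v : α → H) :
    avgR (fun a => (⟪v a, x⟫_ℂ).re) = (⟪avg v, x⟫_ℂ).re := by
  simp [avgR, avg, Complex.mul_re, Complex.re_sum]
  ring

omit [CompleteSpace H] in
theorem avg_apply {α : Type*} [Fintype α] (T : α → H →L[ℂ] H) (v : H) :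
    avg T v = avg fun a => T a v := by
  simp [avg]

theorem norm_sq_eq_re (T : H →L[ℂ] H) (v : H) :
    ‖T v‖ ^ 2 = (⟪v, star T (T v)⟫_ℂ).re := by
  rw [ContinuousLinearMap.star_eq_adjoint, ContinuousLinearMap.adjoint_inner_right,
    inner_self_eq_norm_sq_to_K]
  norm_cast

/-- A family in one algebra flattening `d` at `Ω`, seen from a vector `p Ω` of the other one. -/
theorem avgR_flat {ι : Type} [Fintype ι] [Nonempty ι] {v : ι → H →L[ℂ] H} {d p : H →L[ℂ] H}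
    {θ : ℝ} (hΩ : ‖Ω‖ = 1) (hflat : Data.Flat N Ω θ v d)
    (hd : Commute p d) (hds : Commute p (star d))
    (hv : ∀ i, Commute p (v i)) (hvs : ∀ i, Commute p (star (v i)))
    (hp : ∀ h ∈ N, h ∈ N.commutant → Commute p h) :
    avgR (fun i => ‖d (v i (p Ω))‖ ^ 2) ≤ ‖p Ω‖ ^ 2 + ‖p‖ ^ 2 * θ := by
  obtain ⟨h, hN, hN', hn, hθ⟩ := hflat
  set T : ι → H →L[ℂ] H := fun i => star (v i) * (star d * d) * v i
  have e : ∀ i, ‖d (v i (p Ω))‖ ^ 2 = (⟪p Ω, p (T i Ω)⟫_ℂ).re := by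
    intro i
    have hc : Commute p (T i) := ((hvs i).mul_right (hds.mul_right hd)).mul_right (hv i)
    have h1 : ‖d (v i (p Ω))‖ ^ 2 = ‖(d * v i) (p Ω)‖ ^ 2 := rfl
    rw [h1, norm_sq_eq_re]
    congr 2
    have h2 : star (d * v i) * (d * v i) = T i := by
      simp only [T, star_mul, mul_assoc]
    rw [show star (d * v i) ((d * v i) (p Ω)) = (star (d * v i) * (d * v i) * p) Ω from rfl, h2,
      ← hc.eq]
    rfl
  rw [Vale.Agent.P082.Avg.avgR_congr e, avgR_inner]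
  have e2 : (avg fun i => p (T i Ω)) = p (h Ω) + p (avg T Ω - h Ω) := by
    rw [← map_add, add_sub_cancel, avg_apply]
    simp [avg]
  rw [e2, inner_add_right, Complex.add_re]
  have hθ0 : ‖avg T Ω - h Ω‖ ≤ θ := hθ
  refine add_le_add ?_ ?_
  · have h3 : p (h Ω) = h (p Ω) := by
      have := congrArg (fun R : H →L[ℂ] H => R Ω) (hp h hN hN').eq
      simpa [mul_apply_eq_comp] using this
    rw [h3]
    calc (⟪p Ω, h (p Ω)⟫_ℂ).re ≤ ‖⟪p Ω, h (p Ω)⟫_ℂ‖ := Complex.re_le_norm _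
      _ ≤ ‖p Ω‖ * ‖h (p Ω)‖ := norm_inner_le_norm _ _
      _ ≤ ‖p Ω‖ * ‖p Ω‖ := mul_le_mul_of_nonneg_left (norm_le_of_contr hn _) (norm_nonneg _)
      _ = ‖p Ω‖ ^ 2 := (sq _).symm
  · calc (⟪p Ω, p (avg T Ω - h Ω)⟫_ℂ).re ≤ ‖⟪p Ω, p (avg T Ω - h Ω)⟫_ℂ‖ := Complex.re_le_norm _
      _ ≤ ‖p Ω‖ * ‖p (avg T Ω - h Ω)‖ := norm_inner_le_norm _ _
      _ ≤ (‖p‖ * 1) * (‖p‖ * θ) := by
        refine mul_le_mul (hΩ ▸ p.le_opNorm Ω) (p.le_opNorm_of_le hθ0) (norm_nonneg _)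
          (mul_nonneg (norm_nonneg _) zero_le_one)
      _ = ‖p‖ ^ 2 * θ := by ring

namespace Data

variable {D : Data H} {ε K η Λ σ : ℝ}

/-- One more block on the right keeps the correlation with the partner, up to `σ`. -/
theorem step_left (h : D.Ok M N Ω ε K η Λ) (hc : D.Cent M Ω σ) {P P' : H →L[ℂ] H}
    (hP : P ∈ M) (hPu : P ∈ unitary (H →L[ℂ] H)) (hP' : P' ∈ M.commutant)
    (hPu' : P' ∈ unitary (H →L[ℂ] H)) :
    (⟪P Ω, P' Ω⟫_ℂ).re - σ ≤
      avgR fun q : D.Blk => (⟪(P * D.blk q) Ω, (D.blk' q * P') Ω⟫_ℂ).re := by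
  refine (hc.left P hP hPu P' hP' hPu').trans_eq ?_
  have e : ∀ q : D.Blk, ⟪(P * D.blk q) Ω, (D.blk' q * P') Ω⟫_ℂ =
      ⟪P (star (D.GM q.1) (D.u q.1 (star (D.f' q.2.1) (D.f q.2.1 Ω)))), P' Ω⟫_ℂ := by
    rintro ⟨i, k, j⟩
    show ⟪P (D.u i (D.f k (D.u j Ω))), D.GM j (D.f' k (D.GM i (P' Ω)))⟫_ℂ = _
    rw [h.GM_omega j, ← comm_apply (h.f_mem k) (h.GM_mem j), ← comm_apply (h.u_M i) (h.GM_mem j),
      ← comm_apply hP (h.GM_mem j), ContinuousLinearMap.inner_map_map_of_mem_unitary (h.GM_unit j),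
      ← ContinuousLinearMap.adjoint_inner_left, ← ContinuousLinearMap.star_eq_adjoint,
      ← ContinuousLinearMap.adjoint_inner_left, ← ContinuousLinearMap.star_eq_adjoint]
    rw [comm_apply hP (star_mem (h.f'_mem k)), comm_apply hP (star_mem (h.GM_mem i)),
      comm_apply (h.u_M i) (star_mem (h.f'_mem k))]
  rw [Vale.Agent.P082.Avg.avgR_congr fun q => congrArg Complex.re (e q)]
  rw [show avgR (fun q : D.Blk =>
      (⟪P (star (D.GM q.1) (D.u q.1 (star (D.f' q.2.1) (D.f q.2.1 Ω)))), P' Ω⟫_ℂ).re) =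
      avgR (fun q : Fin (D.r + 1) × Fin (D.m + 1) =>
        (⟪P (star (D.GM q.1) (D.u q.1 (star (D.f' q.2) (D.f q.2 Ω)))), P' Ω⟫_ℂ).re) from ?_,
    avgR_inner_left]
  · simp [avg]
  · rw [Vale.Agent.P082.Avg.avgR_prod, Vale.Agent.P082.Avg.avgR_prod]
    refine Vale.Agent.P082.Avg.avgR_congr fun i => ?_
    rw [Vale.Agent.P082.Avg.avgR_prod]
    refine Vale.Agent.P082.Avg.avgR_congr fun k => ?_
    exact avgR_const (α := Fin (D.r + 1))
      (⟪P (star (D.GM i) (D.u i (star (D.f' k) (D.f k Ω)))), P' Ω⟫_ℂ).re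

/-- One more block on the left keeps the correlation with the partner, up to `σ`. -/
theorem step_right (h : D.Ok M N Ω ε K η Λ) (hc : D.Cent M Ω σ) {P P' : H →L[ℂ] H}
    (hP : P ∈ M) (hPu : P ∈ unitary (H →L[ℂ] H)) (hP' : P' ∈ M.commutant)
    (hPu' : P' ∈ unitary (H →L[ℂ] H)) :
    (⟪P Ω, P' Ω⟫_ℂ).re - σ ≤
      avgR fun q : D.Blk => (⟪(D.blk q * P) Ω, (P' * D.blk' q) Ω⟫_ℂ).re := by
  refine (hc.right P hP hPu P' hP' hPu').trans_eq ?_
  have e : ∀ q : D.Blk, ⟪(D.blk q * P) Ω, (P' * D.blk' q) Ω⟫_ℂ =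
      ⟪P Ω, P' (star (D.u q.2.2) (D.GM q.2.2 (star (D.f q.2.1) (D.f' q.2.1 Ω))))⟫_ℂ := by
    rintro ⟨i, k, j⟩
    show ⟪D.u i (D.f k (D.u j (P Ω))), P' (D.GM j (D.f' k (D.GM i Ω)))⟫_ℂ = _
    rw [← h.GM_omega i, comm_apply (h.u_M i) (h.f'_mem k), comm_apply (h.u_M i) (h.GM_mem j),
      comm_apply (h.u_M i) hP', ContinuousLinearMap.inner_map_map_of_mem_unitary (h.u_unit i),
      ← ContinuousLinearMap.adjoint_inner_right, ← ContinuousLinearMap.star_eq_adjoint,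
      ← ContinuousLinearMap.adjoint_inner_right, ← ContinuousLinearMap.star_eq_adjoint]
    rw [← comm_apply (star_mem (h.f_mem k)) hP', ← comm_apply (star_mem (h.u_M j)) hP',
      ← comm_apply (star_mem (h.f_mem k)) (h.GM_mem j)]
  rw [Vale.Agent.P082.Avg.avgR_congr fun q => congrArg Complex.re (e q)]
  rw [show avgR (fun q : D.Blk =>
      (⟪P Ω, P' (star (D.u q.2.2) (D.GM q.2.2 (star (D.f q.2.1) (D.f' q.2.1 Ω))))⟫_ℂ).re) =
      avgR (fun q : Fin (D.r + 1) × Fin (D.m + 1) =>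
        (⟪P Ω, P' (star (D.u q.1) (D.GM q.1 (star (D.f q.2) (D.f' q.2 Ω))))⟫_ℂ).re) from ?_,
    avgR_inner]
  · simp [avg]
  · rw [Vale.Agent.P082.Avg.avgR_prod]
    refine (avgR_const (α := Fin (D.r + 1)) (avgR fun q : Fin (D.m + 1) × Fin (D.r + 1) =>
      (⟪P Ω, P' (star (D.u q.2) (D.GM q.2 (star (D.f q.1) (D.f' q.1 Ω))))⟫_ℂ).re)).trans ?_
    rw [← Vale.Agent.P082.Avg.avgR_equiv (Equiv.prodComm _ _)]
    rfl

/-- Correlation of a prefix with its partner. -/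
theorem pre_central (h : D.Ok M N Ω ε K η Λ) (hc : D.Cent M Ω σ) (l : Fin (D.n + 1)) :
    avgR (fun ω => ‖D.pre l ω Ω - D.pre' l ω Ω‖ ^ 2) ≤ 2 * (l : ℕ) * σ := by
  have key : ∀ (i : ℕ) (hi : i < D.n + 1),
      1 - i * σ ≤ avgR fun ω => (⟪D.pre ⟨i, hi⟩ ω Ω, D.pre' ⟨i, hi⟩ ω Ω⟫_ℂ).re := by
    intro i
    induction i with
    | zero =>
      intro hi
      simp [pre, pre', inner_self_eq_norm_sq_to_K, h.omega_norm, avgR_const]
    | succ i ih =>
      intro hi
      set l₀ : Fin (D.n + 1) := ⟨i, by omega⟩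
      have es : ∀ ω, D.pre ⟨i + 1, hi⟩ ω = D.pre l₀ ω * D.blk (ω l₀) ∧
          D.pre' ⟨i + 1, hi⟩ ω = D.blk' (ω l₀) * D.pre' l₀ ω := fun ω => by
        have hi' : i < D.n + 1 := by omega
        constructor
        · show (List.take (i + 1) _).prod = (List.take i _).prod * _
          rw [List.take_add_one, List.getElem?_ofFn]
          simp [hi', List.prod_append, l₀]
        · show (List.take (i + 1) _).reverse.prod = _ * (List.take i _).reverse.prod
          rw [List.take_add_one, List.getElem?_ofFn]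
          simp [hi', l₀]
      refine le_trans ?_ (le_of_eq (A.avgR_resample (fun ω q => Function.update ω l₀ q)
        (fun ω => ω l₀) (fun ω q => by simp) (fun ω => by simp) (fun ω q q' => by simp) _))
      refine le_trans ?_ (A.avgR_mono (F := fun ω =>
        (⟪D.pre l₀ ω Ω, D.pre' l₀ ω Ω⟫_ℂ).re - σ) fun ω => ?_)
      · rw [Vale.Agent.P082.Avg.avgR_sub, avgR_const]
        have := ih (by omega)
        push_cast
        linarith
      · refine (step_left h hc (h.pre_mem l₀ ω).1 (h.pre_mem l₀ ω).2.1 (h.pre_mem l₀ ω).2.2.1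
          (h.pre_mem l₀ ω).2.2.2).trans_eq (Vale.Agent.P082.Avg.avgR_congr fun q => ?_)
        rw [(es _).1, (es _).2, Function.update_self, (D.parts_update l₀ ω q).1,
          (D.parts_update l₀ ω q).2.1]
  have e : ∀ ω, ‖D.pre l ω Ω - D.pre' l ω Ω‖ ^ 2 =
      2 - 2 * (⟪D.pre l ω Ω, D.pre' l ω Ω⟫_ℂ).re := fun ω => by
    rw [norm_sub_sq (𝕜 := ℂ), norm_unitary_apply (h.pre_mem l ω).2.1,
      norm_unitary_apply (h.pre_mem l ω).2.2.2, h.omega_norm]
    simp only [RCLike.re_to_complex]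
    ring
  rw [Vale.Agent.P082.Avg.avgR_congr e, Vale.Agent.P082.Avg.avgR_sub, avgR_const, A.avgR_smul]
  have := key l l.2
  simp only [Fin.eta] at this
  nlinarith

/-- Correlation of a suffix with its partner. -/
theorem post_central (h : D.Ok M N Ω ε K η Λ) (hc : D.Cent M Ω σ) (hσ : 0 ≤ σ)
    (l : Fin (D.n + 1)) :
    avgR (fun ω => ‖D.post l ω Ω - D.post' l ω Ω‖ ^ 2) ≤ 2 * (D.n + 1) * σ := by
  have key : ∀ (i : ℕ) (k : Fin (D.n + 1)), D.n - (k : ℕ) = i →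
      1 - i * σ ≤ avgR fun ω => (⟪D.post k ω Ω, D.post' k ω Ω⟫_ℂ).re := by
    intro i
    induction i with
    | zero =>
      intro k hk
      have hk' : D.n + 1 ≤ (k : ℕ) + 1 := by omega
      simp [post, post', List.drop_eq_nil_of_le, hk', inner_self_eq_norm_sq_to_K, h.omega_norm,
        avgR_const]
    | succ i ih =>
      intro k hk
      set l₀ : Fin (D.n + 1) := ⟨k + 1, by omega⟩
      have es : ∀ ω, D.post k ω = D.blk (ω l₀) * D.post l₀ ω ∧
          D.post' k ω = D.post' l₀ ω * D.blk' (ω l₀) := fun ω => by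
        constructor
        · show (List.drop ((k : ℕ) + 1) _).prod = _ * (List.drop ((k : ℕ) + 1 + 1) _).prod
          rw [List.drop_eq_getElem_cons (by rw [List.length_ofFn]; omega)]
          simp [List.prod_cons, l₀]
        · show (List.drop ((k : ℕ) + 1) _).reverse.prod =
            (List.drop ((k : ℕ) + 1 + 1) _).reverse.prod * _
          rw [List.drop_eq_getElem_cons (by rw [List.length_ofFn]; omega)]
          simp [List.prod_append, l₀]
      refine le_trans ?_ (le_of_eq (A.avgR_resample (fun ω q => Function.update ω l₀ q)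
        (fun ω => ω l₀) (fun ω q => by simp) (fun ω => by simp) (fun ω q q' => by simp) _))
      refine le_trans ?_ (A.avgR_mono (F := fun ω =>
        (⟪D.post l₀ ω Ω, D.post' l₀ ω Ω⟫_ℂ).re - σ) fun ω => ?_)
      · rw [Vale.Agent.P082.Avg.avgR_sub, avgR_const]
        have := ih l₀ (by show D.n - ((k : ℕ) + 1) = i; omega)
        push_cast
        linarith
      · refine (step_right h hc (h.post_mem l₀ ω).1 (h.post_mem l₀ ω).2.1 (h.post_mem l₀ ω).2.2.1
          (h.post_mem l₀ ω).2.2.2).trans_eq (Vale.Agent.P082.Avg.avgR_congr fun q => ?_)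
        rw [(es _).1, (es _).2, Function.update_self, (D.parts_update l₀ ω q).2.2.1,
          (D.parts_update l₀ ω q).2.2.2]
  have e : ∀ ω, ‖D.post l ω Ω - D.post' l ω Ω‖ ^ 2 =
      2 - 2 * (⟪D.post l ω Ω, D.post' l ω Ω⟫_ℂ).re := fun ω => by
    rw [norm_sub_sq (𝕜 := ℂ), norm_unitary_apply (h.post_mem l ω).2.1,
      norm_unitary_apply (h.post_mem l ω).2.2.2, h.omega_norm]
    simp only [RCLike.re_to_complex]
    ring
  rw [Vale.Agent.P082.Avg.avgR_congr e, Vale.Agent.P082.Avg.avgR_sub, avgR_const, A.avgR_smul]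
  have := key _ l rfl
  have h2 : ((D.n - (l : ℕ) : ℕ) : ℝ) * σ ≤ ((D.n : ℝ) + 1) * σ := by
    refine mul_le_mul_of_nonneg_right ?_ hσ
    have : ((D.n - (l : ℕ) : ℕ) : ℝ) ≤ (D.n : ℝ) := by exact_mod_cast Nat.sub_le _ _
    linarith
  nlinarith

end Data

end Vale.Agent.P096.III.Word
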