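import Vale.Agent.P096.III.Word.Central

/-!
# P096 III word: the mean square of the test vector

No trace is used: `⟪L k₁, L k₂⟫ = ⟪k₁ Ω, J k₂* Ω⟫` turns a cross term into products of the test
elements and their mirror images, and every mirror image sees a fresh marker.
-/

namespace Vale.Agent.P096.III.Word

open scoped InnerProductSpace
open Vale.Agent.P082 (avg avgR)
open Vale.Agent.P096.A (avgR_mono avgR_smul avgR_finsum)
open Finset

universe u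

variable {H : Type u} [NormedAddCommGroup H] [InnerProductSpace ℂ H] [CompleteSpace H]
variable {M N : VonNeumannAlgebra H} {Ω : H}

theorem commute_of {p T : H →L[ℂ] H} (hp : p ∈ N) (hT : T ∈ N.commutant) : Commute p T :=
  (comm_of hp hT).symm

theorem commute_of' {p T : H →L[ℂ] H} (hp : p ∈ N.commutant) (hT : T ∈ N) : Commute p T :=
  comm_of hT hp

namespace Data

variable {D : Data H} {ε K η Λ σ θ : ℝ} {d₁ d : H →L[ℂ] H}

/-- The samples whose letters at the cuts of `T` equal `i₀`. -/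
noncomputable def ind (T : Finset (Fin (D.n + 1))) (i₀ : Fin (D.m + 1)) (ω : D.Sample) : ℝ :=
  if ∀ l ∈ T, (ω l).2.1 = i₀ then 1 else 0

theorem ind_nonneg (T : Finset (Fin (D.n + 1))) (i₀ : Fin (D.m + 1)) (ω : D.Sample) :
    0 ≤ ind T i₀ ω := by
  unfold ind; split <;> norm_num

theorem ind_setL (T : Finset (Fin (D.n + 1))) (i₀ : Fin (D.m + 1)) (k : Fin (D.n + 1))
    (ω : D.Sample) (j : Fin (D.r + 1)) :
    ind T i₀ (D.setL k ω j) = ind T i₀ ω ∧ ind T i₀ (D.setR k ω j) = ind T i₀ ω := by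
  have h1 : ∀ i, (D.setL k ω j i).2.1 = (ω i).2.1 ∧ (D.setR k ω j i).2.1 = (ω i).2.1 := fun i => by
    by_cases hi : i = k
    · subst hi; simp [setL, setR]
    · simp [setL, setR, Function.update_of_ne hi]
  unfold ind
  simp [h1]

theorem ind_setM_insert {T : Finset (Fin (D.n + 1))} {l : Fin (D.n + 1)} (hl : l ∉ T)
    (i₀ i : Fin (D.m + 1)) (ω : D.Sample) :
    ind (insert l T) i₀ (D.setM l ω i) = if i = i₀ then ind T i₀ ω else 0 := by
  have h1 : ∀ k ∈ T, D.setM l ω i k = ω k := fun k hk => by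
    rw [setM, Function.update_of_ne fun e : k = l => hl (e ▸ hk)]
  unfold ind
  simp only [Finset.forall_mem_insert]
  rw [show (D.setM l ω i l).2.1 = i by simp [setM]]
  by_cases hi : i = i₀
  · simp only [hi, true_and, if_true]
    refine if_congr (forall₂_congr fun k hk => ?_) rfl rfl
    rw [← hi, h1 k hk]
  · simp [hi]

theorem avgR_ind (T : Finset (Fin (D.n + 1))) (i₀ : Fin (D.m + 1)) :
    avgR (ind (D := D) T i₀) = (((D.m : ℝ) + 1)⁻¹) ^ T.card := by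
  classical
  induction T using Finset.induction with
  | empty =>
    simp only [ind, Finset.notMem_empty, IsEmpty.forall_iff, implies_true, if_true, avgR,
      Finset.sum_const, Finset.card_univ, nsmul_eq_mul, mul_one, Finset.card_empty, pow_zero]
    exact inv_mul_cancel₀ (Nat.cast_ne_zero.2 Fintype.card_ne_zero)
  | insert l T hl ih =>
    rw [← D.avgR_setM l, Finset.card_insert_of_notMem hl, pow_succ', ← ih, ← avgR_smul]
    refine Vale.Agent.P082.Avg.avgR_congr fun ω => ?_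
    simp only [ind_setM_insert hl]
    simp [avgR]

theorem avgR_single (l : Fin (D.n + 1)) (i₀ : Fin (D.m + 1)) (F : D.Sample → ℝ)
    (hF : ∀ ω i, F (D.setM l ω i) = F ω) :
    (avgR fun ω => ind {l} i₀ ω * F ω) = ((D.m : ℝ) + 1)⁻¹ * avgR F := by
  rw [← D.avgR_setM l, ← avgR_smul]
  refine Vale.Agent.P082.Avg.avgR_congr fun ω => ?_
  have e1 : ∀ i, ind {l} i₀ (D.setM l ω i) = if i = i₀ then 1 else 0 := fun i => by
    simp [ind, setM]
  simp [avgR, hF, e1, ite_mul]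

/-- The left test element meets a fresh marker. -/
theorem left_single (h : D.Ok M N Ω ε K η Λ) (ht : Tests (D := D) N Ω θ d₁ d) (hθ : 0 ≤ θ)
    (T : Finset (Fin (D.n + 1))) (i₀ : Fin (D.m + 1)) (l : Fin (D.n + 1)) :
    (avgR fun ω => ind T i₀ ω * ‖d₁ (D.a' l ω Ω)‖ ^ 2) ≤
      (1 + θ * Λ ^ 2) * avgR (ind (D := D) T i₀) := by
  rw [← D.avgR_setL l, ← avgR_smul]
  refine avgR_mono fun ω => ?_
  obtain ⟨h1, h2, -, -⟩ := h.pre_mem l ω
  obtain ⟨-, h3, h4⟩ := h.pre_mem l ω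
  obtain ⟨-, hQn, ⟨p, hpN, hpn, hpe⟩, -⟩ := h.Q_ok _ h1 h2 _ h4.1 h4.2
  have e : ∀ j, ‖d₁ (D.a' l (D.setL l ω j) Ω)‖ = ‖d₁ (D.G j (p Ω))‖ := fun j => by
    obtain ⟨e1, e2, -, -⟩ := D.parts_update l ω (j, (ω l).2)
    rw [← hpe]
    simp [a', setL, e1, e2]
  simp only [(ind_setL T i₀ l ω _).1, e]
  rw [avgR_smul, mul_comm]
  refine mul_le_mul_of_nonneg_right ?_ (ind_nonneg _ _ _)
  refine (avgR_flat h.omega_norm ht.flat₁ (commute_of hpN ht.mem₁)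
    (commute_of hpN (star_mem ht.mem₁)) (fun i => commute_of hpN (h.G_N i))
    (fun i => commute_of hpN (star_mem (h.G_N i))) fun _ _ h' => commute_of hpN h').trans ?_
  refine add_le_add ?_ ?_
  · rw [← hpe]
    exact pow_le_one₀ (norm_nonneg _) ((norm_le_of_contr hQn _).trans h.omega_norm.le)
  · rw [mul_comm]
    exact mul_le_mul_of_nonneg_left (pow_le_pow_left₀ (norm_nonneg _) hpn 2) hθ

/-- The right test element meets a fresh marker. -/
theorem right_single (h : D.Ok M N Ω ε K η Λ) (ht : Tests (D := D) N Ω θ d₁ d) (hθ : 0 ≤ θ)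
    (T : Finset (Fin (D.n + 1))) (i₀ : Fin (D.m + 1)) (l : Fin (D.n + 1)) :
    (avgR fun ω => ind T i₀ ω * ‖d (D.b' l ω Ω)‖ ^ 2) ≤
      (1 + θ * Λ ^ 2) * avgR (ind (D := D) T i₀) := by
  rw [← D.avgR_setR l, ← avgR_smul]
  refine avgR_mono fun ω => ?_
  obtain ⟨q1, q2, q3, q4⟩ := h.post_mem l ω
  obtain ⟨-, hQn, ⟨p, hpN, hpn, hpe⟩, -⟩ := h.Q_ok _ (star_mem q1) (Unitary.star_mem q2) _
    (star_mem q3) (Unitary.star_mem q4)
  have e : ∀ j, ‖d (D.b' l (D.setR l ω j) Ω)‖ = ‖d (star (D.G j) (p Ω))‖ := fun j => by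
    obtain ⟨-, -, e1, e2⟩ := D.parts_update l ω ((ω l).1, (ω l).2.1, j)
    rw [← hpe]
    simp [b', setR, e1, e2]
  simp only [(ind_setL T i₀ l ω _).2, e]
  rw [avgR_smul, mul_comm]
  refine mul_le_mul_of_nonneg_right ?_ (ind_nonneg _ _ _)
  refine (avgR_flat h.omega_norm ht.flat (commute_of hpN ht.mem)
    (commute_of hpN (star_mem ht.mem)) (fun i => commute_of hpN (star_mem (h.G_N i)))
    (fun i => commute_of hpN (by rw [star_star]; exact h.G_N i))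
    fun _ _ h' => commute_of hpN h').trans ?_
  refine add_le_add ?_ ?_
  · rw [← hpe]
    exact pow_le_one₀ (norm_nonneg _) ((norm_le_of_contr hQn _).trans h.omega_norm.le)
  · rw [mul_comm]
    exact mul_le_mul_of_nonneg_left (pow_le_pow_left₀ (norm_nonneg _) hpn 2) hθ

/-- The mirror of the right test element meets a fresh marker. -/
theorem mirror_single (h : D.Ok M N Ω ε K η Λ) (ht : Tests (D := D) N Ω θ d₁ d) (hθ : 0 ≤ θ)
    (T : Finset (Fin (D.n + 1))) (i₀ : Fin (D.m + 1)) (l : Fin (D.n + 1)) :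
    (avgR fun ω => ind T i₀ ω * ‖D.jm d (D.jm (D.b' l ω) Ω)‖ ^ 2) ≤
      (1 + θ * Λ ^ 2) * avgR (ind (D := D) T i₀) := by
  rw [← D.avgR_setR l, ← avgR_smul]
  refine avgR_mono fun ω => ?_
  obtain ⟨q1, q2, q3, q4⟩ := h.post_mem l ω
  obtain ⟨hQ, hQn, -, ⟨p, hpN, hpn, hpe⟩, -⟩ := h.Q_ok _ (star_mem q1) (Unitary.star_mem q2) _
    (star_mem q3) (Unitary.star_mem q4)
  have e : ∀ j, ‖D.jm d (D.jm (D.b' l (D.setR l ω j)) Ω)‖ =
      ‖D.jm d (D.jm (star (D.G j)) (p Ω))‖ := fun j => by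
    obtain ⟨-, -, e1, e2⟩ := D.parts_update l ω ((ω l).1, (ω l).2.1, j)
    rw [← hpe]
    simp [b', setR, e1, e2, h.jm_mul _ (star_mem (h.G_N j)) _ hQ]
  simp only [(ind_setL T i₀ l ω _).2, e]
  rw [avgR_smul, mul_comm]
  refine mul_le_mul_of_nonneg_right ?_ (ind_nonneg _ _ _)
  refine (avgR_flat h.omega_norm ht.jflat (commute_of' hpN (h.jm_mem _ ht.mem))
    (commute_of' hpN (star_mem (h.jm_mem _ ht.mem)))
    (fun i => commute_of' hpN (h.jm_mem _ (star_mem (h.G_N i))))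
    (fun i => commute_of' hpN (star_mem (h.jm_mem _ (star_mem (h.G_N i)))))
    fun _ h' _ => commute_of' hpN h').trans ?_
  refine add_le_add ?_ ?_
  · rw [← hpe]
    exact pow_le_one₀ (norm_nonneg _)
      ((norm_le_of_contr ((h.jm_norm _ hQ).trans hQn) _).trans h.omega_norm.le)
  · rw [mul_comm]
    exact mul_le_mul_of_nonneg_left (pow_le_pow_left₀ (norm_nonneg _) hpn 2) hθ

theorem norm_mul3_le {a b c : H →L[ℂ] H} {α β γ : ℝ} (ha : ‖a‖ ≤ α) (hb : ‖b‖ ≤ β) (hc : ‖c‖ ≤ γ) :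
    ‖a * b * c‖ ≤ α * β * γ := by
  have hα := (norm_nonneg a).trans ha
  have hβ := (norm_nonneg b).trans hb
  exact (norm_mul_le _ _).trans (mul_le_mul ((norm_mul_le _ _).trans
    (mul_le_mul ha hb (norm_nonneg _) hα)) hc (norm_nonneg _) (mul_nonneg hα hβ))

/-- The left half of a cross term: first the mirror, then the plain marker. -/
theorem left_pair (h : D.Ok M N Ω ε K η Λ) (ht : Tests (D := D) N Ω θ d₁ d) (hθ : 0 ≤ θ)
    (T : Finset (Fin (D.n + 1))) (i₀ : Fin (D.m + 1)) {l m : Fin (D.n + 1)} (hlm : l < m) :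
    (avgR fun ω => ind T i₀ ω * ‖D.jm d₁ (D.jm (D.a' m ω) (d₁ (D.a' l ω Ω)))‖ ^ 2) ≤
      (1 + θ * Λ ^ 2 + θ * (‖d₁‖ * Λ) ^ 2) * avgR (ind (D := D) T i₀) := by
  rw [add_mul]
  refine le_trans ?_ (add_le_add (left_single h ht hθ T i₀ l) le_rfl)
  rw [← avgR_smul, ← avgR_add, ← D.avgR_setL m]
  refine avgR_mono fun ω => ?_
  obtain ⟨h1, h2, h3, h4⟩ := h.pre_mem m ω
  obtain ⟨hQ, hQn, -, ⟨p', hpN, hpn, hpe⟩, -⟩ := h.Q_ok _ h1 h2 _ h3 h4
  obtain ⟨-, -, ha, -, -, -, han, -⟩ := h.a_mem l ω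
  set q := D.jm (D.Q (D.pre m ω) (D.pre' m ω))
  set p := d₁ * D.a' l ω * p'
  have hp : p ∈ N.commutant := mul_mem (mul_mem ht.mem₁ ha) hpN
  have hqe : q (d₁ (D.a' l ω Ω)) = p Ω := by
    show _ = d₁ (D.a' l ω (p' Ω))
    rw [← hpe, ← comm_apply (h.jm_mem _ hQ) ht.mem₁, ← comm_apply (h.jm_mem _ hQ) ha]
  have e : ∀ j, ‖D.jm d₁ (D.jm (D.a' m (D.setL m ω j)) (d₁ (D.a' l (D.setL m ω j) Ω)))‖ =
      ‖D.jm d₁ (D.jm (D.G j) (p Ω))‖ := fun j => by
    obtain ⟨e1, e2, -, -⟩ := D.parts_update m ω (j, (ω m).2)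
    have e3 : D.a' l (D.setL m ω j) = D.a' l ω :=
      D.a'_congr (fun k hk => Function.update_of_ne (hk.trans hlm).ne _ _)
        (by rw [setL, Function.update_of_ne hlm.ne])
    rw [e3, ← hqe]
    simp [a', setL, e1, e2, h.jm_mul _ (h.G_N j) _ hQ, q]
  simp only [(ind_setL T i₀ m ω _).1, e]
  rw [avgR_smul]
  refine le_trans (mul_le_mul_of_nonneg_left
    ((avgR_flat h.omega_norm ht.jflat₁ (commute_of' hp (h.jm_mem _ ht.mem₁))
      (commute_of' hp (star_mem (h.jm_mem _ ht.mem₁)))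
      (fun i => commute_of' hp (h.jm_mem _ (h.G_N i)))
      (fun i => commute_of' hp (star_mem (h.jm_mem _ (h.G_N i))))
      fun _ h' _ => commute_of' hp h').trans
        (add_le_add (b := ‖d₁ (D.a' l ω Ω)‖ ^ 2) (d := θ * (‖d₁‖ * Λ) ^ 2) ?_ ?_))
    (ind_nonneg _ _ _)) (le_of_eq (by ring))
  · rw [← hqe]
    exact pow_le_pow_left₀ (norm_nonneg _) (norm_le_of_contr ((h.jm_norm _ hQ).trans hQn) _) 2
  · rw [mul_comm θ]
    refine mul_le_mul_of_nonneg_right (pow_le_pow_left₀ (norm_nonneg _) ?_ 2) hθ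
    exact (norm_mul3_le le_rfl han hpn).trans_eq (by ring)

/-- The right half of a cross term: first the plain marker, then the mirror. -/
theorem right_pair (h : D.Ok M N Ω ε K η Λ) (ht : Tests (D := D) N Ω θ d₁ d) (hθ : 0 ≤ θ)
    (T : Finset (Fin (D.n + 1))) (i₀ : Fin (D.m + 1)) {l m : Fin (D.n + 1)} (hlm : l < m) :
    (avgR fun ω => ind T i₀ ω * ‖D.jm d (d (D.b' l ω (D.jm (D.b' m ω) Ω)))‖ ^ 2) ≤
      (1 + θ * Λ ^ 2 + θ * (‖d‖ * Λ) ^ 2) * avgR (ind (D := D) T i₀) := by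
  rw [add_mul]
  refine le_trans ?_ (add_le_add (mirror_single h ht hθ T i₀ m) le_rfl)
  rw [← avgR_smul, ← avgR_add, ← D.avgR_setR l]
  refine avgR_mono fun ω => ?_
  obtain ⟨q1, q2, q3, q4⟩ := h.post_mem l ω
  obtain ⟨hQ, hQn, ⟨p₀, hpN, hpn, hpe⟩, -⟩ := h.Q_ok _ (star_mem q1) (Unitary.star_mem q2) _
    (star_mem q3) (Unitary.star_mem q4)
  obtain ⟨-, -, -, hb, -, -, -, hbn⟩ := h.a_mem m ω
  set Q' := D.Q (star (D.post l ω)) (star (D.post' l ω))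
  set p := D.jm d * D.jm (D.b' m ω) * p₀
  have hD := h.jm_mem _ ht.mem
  have hp : p ∈ N := mul_mem (mul_mem hD (h.jm_mem _ hb)) hpN
  have hqe : Q' (D.jm d (D.jm (D.b' m ω) Ω)) = p Ω := by
    show _ = D.jm d (D.jm (D.b' m ω) (p₀ Ω))
    rw [← hpe, comm_apply hD hQ, comm_apply (h.jm_mem _ hb) hQ]
  have e : ∀ j, ‖D.jm d (d (D.b' l (D.setR l ω j) (D.jm (D.b' m (D.setR l ω j)) Ω)))‖ =
      ‖d (star (D.G j) (p Ω))‖ := fun j => by
    obtain ⟨-, -, e1, e2⟩ := D.parts_update l ω ((ω l).1, (ω l).2.1, j)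
    have e3 : D.b' m (D.setR l ω j) = D.b' m ω :=
      D.b'_congr (fun k hk => Function.update_of_ne (hlm.trans hk).ne' _ _)
        (by rw [setR, Function.update_of_ne hlm.ne'])
    have e4 : D.b' l (D.setR l ω j) = star (D.G j) * Q' := by simp [b', setR, e1, e2, Q']
    rw [e3, e4]
    show ‖D.jm d (d (star (D.G j) (Q' (D.jm (D.b' m ω) Ω))))‖ = _
    rw [← hqe, ← comm_apply hD ht.mem, ← comm_apply hD (star_mem (h.G_N j)),
      ← comm_apply hD hQ]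
  simp only [(ind_setL T i₀ l ω _).2, e]
  rw [avgR_smul]
  refine le_trans (mul_le_mul_of_nonneg_left
    ((avgR_flat h.omega_norm ht.flat (commute_of hp ht.mem) (commute_of hp (star_mem ht.mem))
      (fun i => commute_of hp (star_mem (h.G_N i)))
      (fun i => commute_of hp (by rw [star_star]; exact h.G_N i))
      fun _ _ h' => commute_of hp h').trans
        (add_le_add (b := ‖D.jm d (D.jm (D.b' m ω) Ω)‖ ^ 2) (d := θ * (‖d‖ * Λ) ^ 2) ?_ ?_))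
    (ind_nonneg _ _ _)) (le_of_eq (by ring))
  · rw [← hqe]
    exact pow_le_pow_left₀ (norm_nonneg _) (norm_le_of_contr hQn _) 2
  · rw [mul_comm θ]
    refine mul_le_mul_of_nonneg_right (pow_le_pow_left₀ (norm_nonneg _) ?_ 2) hθ
    exact (norm_mul3_le (h.jm_norm _ ht.mem) ((h.jm_norm _ hb).trans hbn) hpn).trans_eq (by ring)

theorem kk_mem (h : D.Ok M N Ω ε K η Λ) (l : Fin (D.n + 1)) (ω : D.Sample) {k : H →L[ℂ] H}
    (hk : k ∈ N.commutant) : D.kk l ω k ∈ N.commutant :=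
  mul_mem (mul_mem (star_mem (h.a_mem l ω).2.2.2.1) (star_mem hk)) (h.a_mem l ω).2.2.1

/-- Two cuts. -/
theorem re_cross_le (h : D.Ok M N Ω ε K η Λ) (ht : Tests (D := D) N Ω θ d₁ d)
    (l m : Fin (D.n + 1)) (ω : D.Sample) :
    (⟪D.L (D.kk l ω (star d₁ * d)), D.L (D.kk m ω (star d₁ * d))⟫_ℂ).re ≤
      (‖D.jm d₁ (D.jm (D.a' m ω) (d₁ (D.a' l ω Ω)))‖ ^ 2 +
        ‖D.jm d (d (D.b' l ω (D.jm (D.b' m ω) Ω)))‖ ^ 2) / 2 := by
  have hk : star d₁ * d ∈ N.commutant := mul_mem (star_mem ht.mem₁) ht.mem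
  obtain ⟨-, -, hal, hbl, -⟩ := h.a_mem l ω
  obtain ⟨-, -, ham, hbm, -⟩ := h.a_mem m ω
  have hD1 := h.jm_mem _ ht.mem₁
  have hD := h.jm_mem _ ht.mem
  have hα := h.jm_mem _ ham
  have hkm : D.jm (star (D.kk m ω (star d₁ * d))) =
      star (D.jm (D.a' m ω)) * (star (D.jm d₁) * D.jm d) * D.jm (D.b' m ω) := by
    rw [show star (D.kk m ω (star d₁ * d)) = star (D.a' m ω) * (star d₁ * d) * D.b' m ω from by
      simp [kk, mul_assoc]]
    rw [h.jm_mul _ (mul_mem (star_mem ham) hk) _ hbm, h.jm_mul _ (star_mem ham) _ hk,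
      h.jm_mul _ (star_mem ht.mem₁) _ ht.mem, h.jm_star _ ham, h.jm_star _ ht.mem₁]
  rw [h.L_self _ (kk_mem h l ω hk) _ (kk_mem h m ω hk), hkm]
  have e : ⟪D.kk l ω (star d₁ * d) Ω, (star (D.jm (D.a' m ω)) * (star (D.jm d₁) * D.jm d) *
      D.jm (D.b' m ω)) Ω⟫_ℂ = ⟪D.jm d₁ (D.jm (D.a' m ω) (d₁ (D.a' l ω Ω))),
        D.jm d (d (D.b' l ω (D.jm (D.b' m ω) Ω)))⟫_ℂ := by
    simp only [kk, star_mul, star_star, mul_apply_eq_comp]
    rw [ContinuousLinearMap.star_eq_adjoint, ContinuousLinearMap.adjoint_inner_left,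
      ContinuousLinearMap.star_eq_adjoint, ContinuousLinearMap.adjoint_inner_left]
    rw [comm_apply (star_mem hα) hbl, comm_apply (star_mem hα) ht.mem,
      comm_apply (star_mem hD1) hbl, comm_apply (star_mem hD1) ht.mem,
      comm_apply hD hbl, comm_apply hD ht.mem]
    simp only [ContinuousLinearMap.star_eq_adjoint, ContinuousLinearMap.adjoint_inner_right]
  rw [e]
  refine (Complex.re_le_norm _).trans ((norm_inner_le_norm _ _).trans ?_)
  nlinarith [sq_nonneg (‖D.jm d₁ (D.jm (D.a' m ω) (d₁ (D.a' l ω Ω)))‖ -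
    ‖D.jm d (d (D.b' l ω (D.jm (D.b' m ω) Ω)))‖)]

/-- One cut. -/
theorem sq_norm_L_kk_le (h : D.Ok M N Ω ε K η Λ)
    (l : Fin (D.n + 1)) (ω : D.Sample) :
    ‖D.L (D.kk l ω (star d₁ * d))‖ ^ 2 ≤
      (‖d‖ ^ 2 * ‖d₁ (D.a' l ω Ω)‖ ^ 2 + ‖d₁‖ ^ 2 * ‖d (D.b' l ω Ω)‖ ^ 2) / 2 := by
  obtain ⟨-, -, -, -, -, -, han, hbn⟩ := h.a_mem l ω
  have h1 : ‖D.kk l ω (star d₁ * d) Ω‖ ≤ ‖d‖ * ‖d₁ (D.a' l ω Ω)‖ := by
    simp only [kk, star_mul, star_star, mul_apply_eq_comp]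
    refine (norm_le_of_contr (by rwa [norm_star]) _).trans ?_
    exact (ContinuousLinearMap.le_opNorm _ _).trans_eq (by rw [norm_star])
  have h2 : ‖star (D.kk l ω (star d₁ * d)) Ω‖ ≤ ‖d₁‖ * ‖d (D.b' l ω Ω)‖ := by
    simp only [kk, star_mul, star_star, mul_apply_eq_comp]
    refine (norm_le_of_contr (by rwa [norm_star]) _).trans ?_
    exact (ContinuousLinearMap.le_opNorm _ _).trans_eq (by rw [norm_star])
  calc ‖D.L (D.kk l ω (star d₁ * d))‖ ^ 2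
      ≤ ((‖D.kk l ω (star d₁ * d) Ω‖ + ‖star (D.kk l ω (star d₁ * d)) Ω‖) / 2) ^ 2 :=
        pow_le_pow_left₀ (norm_nonneg _) (h.L_norm _) 2
    _ ≤ (‖D.kk l ω (star d₁ * d) Ω‖ ^ 2 + ‖star (D.kk l ω (star d₁ * d)) Ω‖ ^ 2) / 2 := by
        nlinarith [sq_nonneg (‖D.kk l ω (star d₁ * d) Ω‖ - ‖star (D.kk l ω (star d₁ * d)) Ω‖)]
    _ ≤ _ := by
        rw [← mul_pow, ← mul_pow]
        gcongr

/-- The test vector of the word. -/
noncomputable def SS (i₀ : Fin (D.m + 1)) (ω : D.Sample) (k : H →L[ℂ] H) : H :=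
  ((((D.m : ℝ) + 1) / ((D.n : ℝ) + 1) : ℝ) : ℂ) •
    ∑ l, ((ind {l} i₀ ω : ℝ) : ℂ) • D.L (D.kk l ω k)

/-- The mean square of the test vector. -/
theorem avgR_SS_le (h : D.Ok M N Ω ε K η Λ) (ht : Tests (D := D) N Ω θ d₁ d) (hθ : 0 ≤ θ)
    (i₀ : Fin (D.m + 1)) :
    (avgR fun ω => ‖SS i₀ ω (star d₁ * d)‖ ^ 2) ≤
      (1 + θ * Λ ^ 2 * (1 + ‖d₁‖ ^ 2 + ‖d‖ ^ 2)) *
        (1 + ((D.m : ℝ) + 1) / ((D.n : ℝ) + 1) * (‖d₁‖ ^ 2 + ‖d‖ ^ 2)) := by
  classical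
  set k := star d₁ * d
  set q : ℝ := ((D.m : ℝ) + 1) / ((D.n : ℝ) + 1) with hq
  set v : Fin (D.n + 1) → D.Sample → H := fun l ω => D.L (D.kk l ω k)
  set E := 1 + θ * Λ ^ 2 * (1 + ‖d₁‖ ^ 2 + ‖d‖ ^ 2) with hE
  set Dd := ‖d₁‖ ^ 2 + ‖d‖ ^ 2 with hDd
  have hE0 : 1 ≤ E := le_add_of_nonneg_right (by positivity)
  have e : ∀ ω, ‖SS i₀ ω k‖ ^ 2 =
      q ^ 2 * ∑ l, ∑ m, ind {l} i₀ ω * ind {m} i₀ ω * (⟪v l ω, v m ω⟫_ℂ).re := by
    intro ω
    rw [SS, norm_smul, mul_pow, Complex.norm_real, Real.norm_eq_abs, sq_abs, ← hq]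
    congr 1
    rw [← inner_self_eq_norm_sq (𝕜 := ℂ), sum_inner]
    simp only [inner_sum, inner_smul_left, inner_smul_right, Complex.conj_ofReal, map_sum]
    refine Finset.sum_congr rfl fun l _ => Finset.sum_congr rfl fun m _ => ?_
    rw [← mul_assoc]
    show (((ind {m} i₀ ω : ℝ) : ℂ) * ((ind {l} i₀ ω : ℝ) : ℂ) * ⟪v l ω, v m ω⟫_ℂ).re = _
    rw [← Complex.ofReal_mul, Complex.re_ofReal_mul, mul_comm (ind {m} i₀ ω)]
  have hind : ∀ l m ω, ind (D := D) {l} i₀ ω * ind {m} i₀ ω = ind {l, m} i₀ ω := by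
    intro l m ω
    unfold ind
    simp only [Finset.mem_singleton, forall_eq, Finset.forall_mem_insert]
    split_ifs <;> simp_all
  rw [Vale.Agent.P082.Avg.avgR_congr e, avgR_smul, avgR_finsum]
  simp only [avgR_finsum, hind]
  set M' : ℝ := ((D.m : ℝ) + 1)⁻¹ with hM'
  have hM0 : 0 ≤ M' := by positivity
  have hlt : ∀ l m, l < m →
      (avgR fun ω => ind {l, m} i₀ ω * (⟪v l ω, v m ω⟫_ℂ).re) ≤ M' ^ 2 * E := by
    intro l m hlm
    refine (avgR_mono fun ω => mul_le_mul_of_nonneg_left (re_cross_le h ht l m ω)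
      (ind_nonneg _ _ _)).trans ?_
    have hL := left_pair h ht hθ {l, m} i₀ hlm
    have hR := right_pair h ht hθ {l, m} i₀ hlm
    rw [avgR_ind, Finset.card_pair hlm.ne, ← hM'] at hL hR
    simp only [mul_div_assoc', mul_add]
    rw [show (fun ω => (ind (D := D) {l, m} i₀ ω *
        ‖D.jm d₁ (D.jm (D.a' m ω) (d₁ (D.a' l ω Ω)))‖ ^ 2 + ind {l, m} i₀ ω *
        ‖D.jm d (d (D.b' l ω (D.jm (D.b' m ω) Ω)))‖ ^ 2) / 2) = fun ω => 2⁻¹ * (ind {l, m} i₀ ω *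
        ‖D.jm d₁ (D.jm (D.a' m ω) (d₁ (D.a' l ω Ω)))‖ ^ 2 + ind {l, m} i₀ ω *
        ‖D.jm d (d (D.b' l ω (D.jm (D.b' m ω) Ω)))‖ ^ 2) from funext fun ω => by ring,
      avgR_smul, avgR_add]
    nlinarith [hE, mul_nonneg (mul_nonneg hθ (sq_nonneg Λ)) (mul_nonneg (sq_nonneg M')
      (add_nonneg (sq_nonneg ‖d₁‖) (sq_nonneg ‖d‖)))]
  have hpair : ∀ l m, (avgR fun ω => ind {l, m} i₀ ω * (⟪v l ω, v m ω⟫_ℂ).re) ≤
      M' ^ 2 * E + if l = m then M' * (E * Dd) else 0 := by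
    intro l m
    rcases lt_trichotomy l m with hlm | rfl | hlm
    · rw [if_neg hlm.ne, add_zero]; exact hlt l m hlm
    · rw [if_pos rfl]
      refine le_add_of_nonneg_of_le (mul_nonneg (sq_nonneg _) (by linarith)) ?_
      refine (avgR_mono fun ω => mul_le_mul_of_nonneg_left
        ((inner_self_eq_norm_sq (𝕜 := ℂ) (v l ω)).trans_le (sq_norm_L_kk_le h l ω))
        (ind_nonneg _ _ _)).trans ?_
      have hL := left_single h ht hθ {l, l} i₀ l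
      have hR := right_single h ht hθ {l, l} i₀ l
      rw [avgR_ind, Finset.pair_eq_singleton, Finset.card_singleton, pow_one, ← hM'] at hL hR
      rw [Finset.pair_eq_singleton]
      rw [show (fun ω => ind (D := D) {l} i₀ ω * ((‖d‖ ^ 2 * ‖d₁ (D.a' l ω Ω)‖ ^ 2 +
          ‖d₁‖ ^ 2 * ‖d (D.b' l ω Ω)‖ ^ 2) / 2)) = fun ω => 2⁻¹ * (‖d‖ ^ 2 * (ind {l} i₀ ω *
          ‖d₁ (D.a' l ω Ω)‖ ^ 2) + ‖d₁‖ ^ 2 * (ind {l} i₀ ω * ‖d (D.b' l ω Ω)‖ ^ 2)) from
        funext fun ω => by ring, avgR_smul, avgR_add, avgR_smul, avgR_smul]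
      have hL' := mul_le_mul_of_nonneg_left hL (sq_nonneg ‖d‖)
      have hR' := mul_le_mul_of_nonneg_left hR (sq_nonneg ‖d₁‖)
      have hE' : 1 + θ * Λ ^ 2 ≤ E := by
        nlinarith [hE, mul_nonneg (mul_nonneg hθ (sq_nonneg Λ)) (add_nonneg (sq_nonneg ‖d₁‖)
          (sq_nonneg ‖d‖))]
      have h3 := mul_le_mul_of_nonneg_right hE' (mul_nonneg hM0 (add_nonneg (sq_nonneg ‖d₁‖)
        (sq_nonneg ‖d‖)))
      nlinarith [hDd, mul_nonneg (mul_nonneg hM0 (le_trans zero_le_one hE0))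
        (add_nonneg (sq_nonneg ‖d₁‖) (sq_nonneg ‖d‖))]
    · rw [if_neg hlm.ne', add_zero, Finset.pair_comm]
      refine le_of_eq_of_le (Vale.Agent.P082.Avg.avgR_congr fun ω => ?_) (hlt m l hlm)
      rw [show (⟪v l ω, v m ω⟫_ℂ).re = (⟪v m ω, v l ω⟫_ℂ).re from inner_re_symm (𝕜 := ℂ) _ _]
  refine (mul_le_mul_of_nonneg_left (Finset.sum_le_sum fun l _ => Finset.sum_le_sum fun m _ =>
    hpair l m) (sq_nonneg q)).trans_eq ?_
  simp only [Finset.sum_add_distrib, Finset.sum_const, Finset.card_univ, Fintype.card_fin,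
    nsmul_eq_mul, Finset.sum_ite_eq, Finset.mem_univ, if_true, Nat.cast_add, Nat.cast_one]
  rw [hq, hM']
  field_simp

end Data

end Vale.Agent.P096.III.Word
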