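import Vale.Agent.P096.III.Word.Markers
import Vale.Agent.P096.III.Word.Estimate

/-!
# P096 III word: almost centralising letters are almost central after averaging

At a weighted vector `ω = c Ω` the twirls bring `f'* f ω` near `m ω` with `m` central,
`-1 ≤ m ≤ 1`, so the correlation of any pair of partners drops by at most `δ² / 2`.
-/

namespace Vale.Agent.P096.III.Word

open scoped InnerProductSpace Topology
open Filter
open Vale.Agent.P132 (IsCS ModData)
open Vale.Agent.P132.Modular (conjOp conjOp_apply conjOp_omega conjOp_mem star_conjOp)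
open Vale.Agent.P082 (avg avgR)

universe u

variable {H : Type u} [NormedAddCommGroup H] [InnerProductSpace ℂ H] [CompleteSpace H]
  {A : VonNeumannAlgebra H} {Ω : H} (D : ModData A Ω) {G : ℕ → Finset (H →L[ℂ] H)}

/-- A real function of a selfadjoint central element is central. -/
theorem inCentre_cfc {z : H →L[ℂ] H} (hz : InCentre A z) (g : ℝ → ℝ) :
    InCentre A (cfc g z) := by
  constructor
  · rw [← VonNeumannAlgebra.commutant_commutant A, VonNeumannAlgebra.mem_commutant_iff]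
    intro y hy
    exact ((commute_of hz.1 hy).cfc_real g).eq.symm
  · rw [VonNeumannAlgebra.mem_commutant_iff]
    intro y hy
    exact ((commute_of hy hz.2).symm.cfc_real g).eq.symm

theorem central_smul {z : H →L[ℂ] H} (hz : InCentre A z) (c : ℂ) : InCentre A (c • z) :=
  ⟨A.toStarSubalgebra.smul_mem hz.1 c, A.commutant.toStarSubalgebra.smul_mem hz.2 c⟩

theorem inner_sa {z : H →L[ℂ] H} (hz : IsSelfAdjoint z) (v w : H) : ⟪z v, w⟫_ℂ = ⟪v, z w⟫_ℂ := by
  conv_lhs => rw [← hz.star_eq, ContinuousLinearMap.star_eq_adjoint,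
    ContinuousLinearMap.adjoint_inner_left]

theorem twirl_central (hG : Grps A Ω G) {k : ℕ} {g z : H →L[ℂ] H} (hg : g ∈ G k)
    (hz : InCentre A z) (v : H) : twirl D g (z v) = z (twirl D g v) := by
  have hA := hG.mem k g hg
  simp only [twirl, mul_apply_eq_comp]
  rw [← comm_apply hA hz.2, comm_apply hz.1 (star_mem (part_mem D hA))]

theorem wavg_central (hG : Grps A Ω G) (k : ℕ) {z : H →L[ℂ] H} (hz : InCentre A z) (v : H) :
    wavg D G k (z v) = z (wavg D G k v) := by
  simp only [wavg, smul_apply, sum_apply, map_smul, map_sum]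
  congr 1
  exact Finset.sum_congr rfl fun g hg => twirl_central D hG hg hz v

theorem J_twirl {g : H →L[ℂ] H} (hA : g ∈ A) (v : H) :
    D.J (twirl D g v) = twirl D g (D.J v) := by
  simp only [twirl, mul_apply_eq_comp, part, star_conjOp, star_star]
  rw [conjOp_apply, D.J_invol, comm_apply hA (conjOp_mem D hA), conjOp_apply, D.J_invol]

theorem central_omega_fixed (hG : Grps A Ω G) {k : ℕ} {g z : H →L[ℂ] H} (hg : g ∈ G k)
    (hz : InCentre A z) : twirl D g (z Ω) = z Ω := by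
  rw [twirl_central D hG hg hz, (twirl_facts D hG hg).2.1]

/-- The central clip. -/
theorem exists_clip (hG : Grps A Ω G) {c f : H →L[ℂ] H} (hc : InCentre A c)
    (hcs : IsSelfAdjoint c) (hf : f ∈ A) (hfu : f ∈ unitary (H →L[ℂ] H)) {θ : ℝ} (hθ : 0 < θ) :
    ∃ m, InCentre A m ∧ IsSelfAdjoint m ∧ ‖m‖ ≤ 1 ∧ ∀ᶠ k in atTop,
      ‖wavg D G k (star (part D f) (f (c Ω))) - m (c Ω)‖ ≤ θ := by
  set v := star (part D f) (f Ω) with hv
  obtain ⟨ξ, hξ, hfix⟩ := exists_limit D hG v
  -- the vector and its limit are fixed by `J`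
  have hJv : D.J v = v := by
    simp only [hv, part, star_conjOp, star_star]
    rw [comm_apply hf (conjOp_mem D hf), conjOp_omega]
    rw [← conjOp_apply, comm_apply hf (conjOp_mem D hf), conjOp_omega]
  have hJk : ∀ k, D.J (wavg D G k v) = wavg D G k v := by
    intro k
    have hsum : ∀ s : Finset (H →L[ℂ] H), (∀ g ∈ s, g ∈ A) →
        D.J (∑ g ∈ s, twirl D g v) = ∑ g ∈ s, twirl D g v := by
      intro s
      classical
      induction s using Finset.induction with
      | empty => simp [Vale.Agent.P132.Fixed.J_zero]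
      | insert g s hgs ih =>
        intro h
        rw [Finset.sum_insert hgs, D.J_add, J_twirl D (h g (Finset.mem_insert_self _ _)), hJv,
          ih fun x hx => h x (Finset.mem_insert_of_mem hx)]
    simp only [wavg, smul_apply, sum_apply, D.J_smul, map_inv₀, map_natCast,
      hsum _ fun g hg => hG.mem k g hg]
  have hJξ : D.J ξ = ξ := tendsto_nhds_unique
    ((((Vale.Agent.P132.Fixed.continuous_J D).tendsto ξ).comp hξ).congr hJk) hξ
  obtain ⟨z₀, hz₀, hz₀e⟩ := exists_central_near D hG hfix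
    (e := θ / (2 * (‖c‖ + 1))) (by positivity)
  set e := θ / (2 * (‖c‖ + 1))
  set z := (1 / 2 : ℂ) • (z₀ + star z₀) with hzdef
  have hzc : InCentre A z :=
    central_smul ⟨add_mem hz₀.1 (star_mem hz₀.1), add_mem hz₀.2 (star_mem hz₀.2)⟩ _
  have hzsa : IsSelfAdjoint z := by
    show star z = z
    rw [hzdef, star_smul, star_add, star_star, add_comm]
    norm_num
  have hze : ‖z Ω - ξ‖ ≤ e := by
    have h1 : D.J (z₀ Ω) = star z₀ Ω := by
      simpa using (Analytic.central_fixed D hG.cs (star_mem hz₀.1) (star_mem hz₀.2)).1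
    have h2 : ‖star z₀ Ω - ξ‖ ≤ e := by
      rw [← h1, ← hJξ, ← Vale.Agent.P132.Fixed.J_sub, Vale.Agent.P132.Fixed.norm_J]
      exact hz₀e
    have e1 : z Ω - ξ = (1 / 2 : ℂ) • ((z₀ Ω - ξ) + (star z₀ Ω - ξ)) := by
      simp only [hzdef, smul_apply, add_apply]
      module
    rw [e1, norm_smul, norm_div, norm_one, Complex.norm_two]
    linarith [norm_add_le (z₀ Ω - ξ) (star z₀ Ω - ξ)]
  set p := cfc (fun t : ℝ => max (t - 1) 0) z
  set q := cfc (fun t : ℝ => max (-1 - t) 0) z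
  set m := cfc (fun t : ℝ => max (-1) (min t 1)) z with hm
  have hcont : ∀ {g : ℝ → ℝ}, Continuous g → ContinuousOn g (spectrum ℝ z) :=
    fun h => h.continuousOn
  have hsplit : z = m + (p - q) := by
    rw [hm, ← cfc_sub _ _ z (hcont (by fun_prop)) (hcont (by fun_prop)),
      ← cfc_add (a := z) _ _ (hcont (by fun_prop)) (hcont (by fun_prop))]
    conv_lhs => rw [← cfc_id' ℝ z hzsa]
    refine cfc_congr fun t _ => ?_
    simp only [max_def, min_def]
    split_ifs <;> linarith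
  have hpm : p * m = p := by
    rw [hm, ← cfc_mul _ _ z (hcont (by fun_prop)) (hcont (by fun_prop))]
    refine cfc_congr fun t _ => ?_
    simp only [max_def, min_def]
    split_ifs <;> nlinarith
  have hqm : q * m = -q := by
    rw [hm, ← cfc_mul _ _ z (hcont (by fun_prop)) (hcont (by fun_prop)), ← cfc_neg _ z]
    refine cfc_congr fun t _ => ?_
    simp only [max_def, min_def]
    split_ifs <;> nlinarith
  have hmn : ‖m‖ ≤ 1 := norm_cfc_le zero_le_one fun t _ => by
    rw [Real.norm_eq_abs, abs_le]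
    exact ⟨le_max_left _ _, max_le (by norm_num) (min_le_right _ _)⟩
  have hmc := inCentre_cfc hzc fun t : ℝ => max (-1) (min t 1)
  have hmsa : IsSelfAdjoint m := cfc_predicate _ z
  -- positive central elements see the limit below the vector
  have hdom : ∀ g : ℝ → ℝ, Continuous g → (∀ t, 0 ≤ g t) →
      |(⟪cfc g z (c Ω), c ξ⟫_ℂ).re| ≤ (⟪cfc g z (c Ω), c Ω⟫_ℂ).re := by
    intro g hg hg0
    set b := cfc g z
    set s := cfc (fun t => √(g t)) z
    have hs : s * s = b := by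
      rw [← cfc_mul _ _ z (hcont (by fun_prop)) (hcont (by fun_prop))]
      exact cfc_congr fun t _ => Real.mul_self_sqrt (hg0 t)
    have hbc : InCentre A (b * c) := ⟨mul_mem (inCentre_cfc hzc g).1 hc.1,
      mul_mem (inCentre_cfc hzc g).2 hc.2⟩
    have hbcc : InCentre A (c * (b * c)) := ⟨mul_mem hc.1 hbc.1, mul_mem hc.2 hbc.2⟩
    have e1 : ⟪b (c Ω), c ξ⟫_ℂ = ⟪b (c Ω), c v⟫_ℂ := by
      rw [← inner_sa hcs, ← inner_sa hcs]
      refine tendsto_nhds_unique ((tendsto_const_nhds (x := c (b (c Ω)))).inner (𝕜 := ℂ) hξ)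
        (tendsto_const_nhds.congr fun k => ?_)
      exact (inner_wavg D hG k (fun g' hg' => central_omega_fixed D hG hg' hbcc) v).symm
    have hsc := inCentre_cfc hzc fun t => √(g t)
    have hssa : IsSelfAdjoint s := cfc_predicate _ z
    have hcv : c v = star (part D f) (f (c Ω)) := by
      rw [hv, ← comm_apply hc.1 (star_mem (part_mem D hf)), comm_apply hf hc.2]
    rw [e1, hcv, show b (c Ω) = s (s (c Ω)) by rw [← hs]; rfl]
    have e2 : ⟪s (s (c Ω)), star (part D f) (f (c Ω))⟫_ℂ =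
        ⟪part D f (s (c Ω)), f (s (c Ω))⟫_ℂ := by
      rw [inner_sa hssa, ← comm_apply hsc.1 (star_mem (part_mem D hf)),
        ← comm_apply hf hsc.2, ContinuousLinearMap.star_eq_adjoint,
        ContinuousLinearMap.adjoint_inner_right]
    have e3 : (⟪s (s (c Ω)), c Ω⟫_ℂ).re = ‖s (c Ω)‖ ^ 2 := by
      rw [inner_sa hssa, inner_self_eq_norm_sq_to_K]
      norm_cast
    rw [e2, e3]
    refine (Complex.abs_re_le_norm _).trans ((norm_inner_le_norm _ _).trans_eq ?_)
    rw [norm_unitary_apply (part_unit D hfu), norm_unitary_apply hfu, sq]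
  -- clipping moves `z (c Ω)` towards `c ξ`
  have hclip : ‖m (c Ω) - c ξ‖ ≤ ‖z (c Ω) - c ξ‖ := by
    have hp : IsSelfAdjoint p := cfc_predicate _ z
    have hq : IsSelfAdjoint q := cfc_predicate _ z
    have h1 : 0 ≤ (⟪(p - q) (c Ω), m (c Ω) - c ξ⟫_ℂ).re := by
      have ep : ⟪p (c Ω), m (c Ω)⟫_ℂ = ⟪p (c Ω), c Ω⟫_ℂ := by
        rw [inner_sa hp, ← mul_apply_eq_comp p m, hpm, inner_sa hp]
      have eq' : ⟪q (c Ω), m (c Ω)⟫_ℂ = -⟪q (c Ω), c Ω⟫_ℂ := by
        rw [inner_sa hq, ← mul_apply_eq_comp q m, hqm, neg_apply, inner_neg_right, inner_sa hq]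
      have dp := abs_le.1 (hdom (fun t => max (t - 1) 0) (by fun_prop) fun t => le_max_right _ _)
      have dq := abs_le.1 (hdom (fun t => max (-1 - t) 0) (by fun_prop) fun t => le_max_right _ _)
      rw [sub_apply, inner_sub_left, inner_sub_right, inner_sub_right, ep, eq']
      simp only [Complex.sub_re, Complex.neg_re]
      linarith [dp.2, dq.1]
    have e1 : z (c Ω) - c ξ = (p - q) (c Ω) + (m (c Ω) - c ξ) := by
      conv_lhs => rw [hsplit]
      simp only [add_apply]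
      abel
    have h2 := norm_add_sq (𝕜 := ℂ) ((p - q) (c Ω)) (m (c Ω) - c ξ)
    rw [← e1] at h2
    simp only [RCLike.re_to_complex] at h2
    refine (pow_le_pow_iff_left₀ (norm_nonneg _) (norm_nonneg _) two_ne_zero).1 ?_
    nlinarith [sq_nonneg ‖(p - q) (c Ω)‖]
  have hzc' : z (c Ω) - c ξ = c (z Ω - ξ) := by rw [map_sub, comm_apply hzc.1 hc.2]
  refine ⟨m, hmc, hmsa, hmn, ?_⟩
  have hcv : star (part D f) (f (c Ω)) = c v := by
    rw [hv, ← comm_apply hc.1 (star_mem (part_mem D hf)), comm_apply hf hc.2]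
  have hlim : Tendsto (fun k => wavg D G k (star (part D f) (f (c Ω)))) atTop (𝓝 (c ξ)) := by
    rw [hcv]
    exact ((c.continuous.tendsto ξ).comp hξ).congr fun k => (wavg_central D hG k hc v).symm
  filter_upwards [(Metric.tendsto_nhds.1 hlim) (θ / 2) (half_pos hθ)] with k hk
  rw [dist_eq_norm] at hk
  refine (norm_sub_le_norm_sub_add_norm_sub _ (c ξ) _).trans ?_
  rw [norm_sub_rev (c ξ)]
  have h4 : ‖c (z Ω - ξ)‖ ≤ θ / 2 := by
    refine ((c.le_opNorm _).trans (mul_le_mul_of_nonneg_left hze (norm_nonneg _))).trans ?_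
    show ‖c‖ * (θ / (2 * (‖c‖ + 1))) ≤ θ / 2
    rw [mul_div_assoc', div_le_div_iff₀ (by positivity) two_pos]
    nlinarith [norm_nonneg c]
  rw [hzc'] at hclip
  linarith

/-- The mean over the twirls and the letters keeps the correlation of partners, up to `δ²/2`. -/
theorem cent_bound {ι : Type} [Fintype ι] [Nonempty ι] {ω : H} (hω : ‖ω‖ = 1) {θ δ : ℝ}
    {X x : H} {v : ι → H} {m : ι → H →L[ℂ] H}
    (hm : ∀ i, InCentre A (m i) ∧ IsSelfAdjoint (m i) ∧ ‖m i‖ ≤ 1)
    (hX : ‖X - avg m ω‖ ≤ θ) (hxX : ⟪ω, X⟫_ℂ = ⟪ω, x⟫_ℂ) (hxv : x = avg v)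
    (hv : ∀ i, 1 - δ ^ 2 / 2 ≤ (⟪ω, v i⟫_ℂ).re) {P P' : H →L[ℂ] H} (hP : P ∈ A)
    (hPu : P ∈ unitary (H →L[ℂ] H)) (hP' : P' ∈ A.commutant)
    (hPu' : P' ∈ unitary (H →L[ℂ] H)) :
    (⟪P ω, P' ω⟫_ℂ).re - (δ ^ 2 / 2 + 2 * θ) ≤ (⟪P X, P' ω⟫_ℂ).re ∧
      (⟪P ω, P' ω⟫_ℂ).re - (δ ^ 2 / 2 + 2 * θ) ≤ (⟪P ω, P' X⟫_ℂ).re := by
  set mm := avg m with hmm
  have hc : InCentre A mm :=
    central_smul ⟨sum_mem fun i _ => (hm i).1.1, sum_mem fun i _ => (hm i).1.2⟩ _
  have hsa : IsSelfAdjoint mm := by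
    show star _ = _
    simp only [hmm, avg, star_smul, star_sum, star_inv₀, star_natCast,
      Finset.sum_congr rfl fun i _ => (hm i).2.1.star_eq]
  have hn : ‖mm‖ ≤ 1 := Vale.Agent.P082.Avg.norm_avg_le fun i => (hm i).2.2
  -- `1 - mm` is a central square
  have : Nontrivial H := ⟨⟨ω, 0, fun h => by simp [h] at hω⟩⟩
  set s := cfc (fun t : ℝ => √(1 - t)) mm with hs
  have hssa : IsSelfAdjoint s := cfc_predicate _ mm
  have hsc := inCentre_cfc hc fun t : ℝ => √(1 - t)
  have hss : s * s = 1 - mm := by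
    rw [hs, ← cfc_mul _ _ mm (by fun_prop) (by fun_prop)]
    conv_rhs => rw [← cfc_id' ℝ mm hsa, ← cfc_const_one ℝ mm,
      ← cfc_sub _ _ mm (by fun_prop) (by fun_prop)]
    refine cfc_congr fun t ht => Real.mul_self_sqrt (sub_nonneg.2 ?_)
    have := (spectrum.norm_le_norm_of_mem ht).trans hn
    exact (le_abs_self t).trans (by rwa [← Real.norm_eq_abs])
  have hsq : ‖s ω‖ ^ 2 ≤ δ ^ 2 / 2 + θ := by
    have h1 : ‖s ω‖ ^ 2 = 1 - (⟪ω, mm ω⟫_ℂ).re := by
      have : ⟪s ω, s ω⟫_ℂ = ⟪ω, ω⟫_ℂ - ⟪ω, mm ω⟫_ℂ := by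
        rw [inner_sa hssa, ← mul_apply_eq_comp, hss, sub_apply, one_apply_eq_self, inner_sub_right]
      have h2 := congrArg Complex.re this
      rw [inner_self_eq_norm_sq_to_K, inner_self_eq_norm_sq_to_K, hω, Complex.sub_re] at h2
      simpa [← Complex.ofReal_pow] using h2
    have h2 : (⟪ω, X⟫_ℂ).re - (⟪ω, mm ω⟫_ℂ).re ≤ θ := by
      rw [← Complex.sub_re, ← inner_sub_right]
      refine (Complex.re_le_norm _).trans ((norm_inner_le_norm _ _).trans ?_)
      rw [hω, one_mul]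
      exact hX
    have h3 : 1 - δ ^ 2 / 2 ≤ (⟪ω, X⟫_ℂ).re := by
      rw [hxX, hxv, ← avgR_inner]
      exact (avgR_const (α := ι) _).ge.trans (Vale.Agent.P096.A.avgR_mono hv)
    linarith
  have hcross : (⟪P ω, P' ω⟫_ℂ).re - (⟪P (mm ω), P' ω⟫_ℂ).re ≤ δ ^ 2 / 2 + θ := by
    rw [← Complex.sub_re, ← inner_sub_left, ← map_sub,
      show ω - mm ω = s (s ω) by rw [← mul_apply_eq_comp, hss, sub_apply, one_apply_eq_self],
      ← comm_apply hP hsc.2, inner_sa hssa, ← comm_apply hsc.1 hP']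
    refine (Complex.re_le_norm _).trans ((norm_inner_le_norm _ _).trans ?_)
    rw [norm_unitary_apply hPu, norm_unitary_apply hPu']
    rwa [← sq]
  constructor
  · have h4 : (⟪P (mm ω), P' ω⟫_ℂ).re - (⟪P X, P' ω⟫_ℂ).re ≤ θ := by
      rw [← Complex.sub_re, ← inner_sub_left, ← map_sub]
      refine (Complex.re_le_norm _).trans ((norm_inner_le_norm _ _).trans ?_)
      rw [norm_unitary_apply hPu, norm_unitary_apply hPu', hω, mul_one, norm_sub_rev]
      exact hX
    linarith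
  · have e : (⟪P (mm ω), P' ω⟫_ℂ).re = (⟪P ω, P' (mm ω)⟫_ℂ).re := by
      rw [← comm_apply hP hc.2, inner_sa hsa, ← comm_apply hc.1 hP']
    have h4 : (⟪P ω, P' (mm ω)⟫_ℂ).re - (⟪P ω, P' X⟫_ℂ).re ≤ θ := by
      rw [← Complex.sub_re, ← inner_sub_right, ← map_sub]
      refine (Complex.re_le_norm _).trans ((norm_inner_le_norm _ _).trans ?_)
      rw [norm_unitary_apply hPu, norm_unitary_apply hPu', hω, one_mul, norm_sub_rev]
      exact hX
    linarith

end Vale.Agent.P096.III.Word
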