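import Vale.Agent.P096.A.Word

/-!
# P096 III: the random word at a cyclic separating vector

Blocks `u_i f u_j` with markers `u_i` in both algebras that have partners `G_i` in `N'` and `GM_i`
in `M'`, `u_i Ω = G_i Ω = GM_i Ω`, and letters `f` of `M` with partners `f'` in `M'`. No trace: the test element
`b'* k* a'` lives in the commutant of `N` and is paired through the lift `L`
(notes/P096/III_DIRECT_helper7.md, HYBRID_helper5.md).
-/

namespace Vale.Agent.P096.III.Word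

open scoped InnerProductSpace
open Vale.Agent.P082 (avg avgR)

universe u

variable {H : Type u} [NormedAddCommGroup H] [InnerProductSpace ℂ H] [CompleteSpace H]

/-- The letters and the auxiliary maps of the word. -/
structure Data (H : Type u) [NormedAddCommGroup H] [InnerProductSpace ℂ H] [CompleteSpace H] where
  /-- the number of markers minus one -/
  r : ℕ
  /-- the markers -/
  u : Fin (r + 1) → H →L[ℂ] H
  /-- their partners in the commutant of `N` -/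
  G : Fin (r + 1) → H →L[ℂ] H
  /-- their partners in the commutant of `M` -/
  GM : Fin (r + 1) → H →L[ℂ] H
  /-- the number of other letters minus one -/
  m : ℕ
  /-- the other letters -/
  f : Fin (m + 1) → H →L[ℂ] H
  /-- their partners in the commutant -/
  f' : Fin (m + 1) → H →L[ℂ] H
  /-- the number of blocks minus one -/
  n : ℕ
  /-- a nearest contraction -/
  π : (H →L[ℂ] H) → H →L[ℂ] H
  /-- the smoothed partner in the commutant -/
  Q : (H →L[ℂ] H) → (H →L[ℂ] H) → H →L[ℂ] H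
  /-- the linear lift -/
  L : (H →L[ℂ] H) →ₗ[ℂ] H
  /-- conjugation of the commutant onto the algebra -/
  jm : (H →L[ℂ] H) → H →L[ℂ] H

namespace Data

variable (D : Data H)

/-- A block. -/
abbrev Blk := Fin (D.r + 1) × Fin (D.m + 1) × Fin (D.r + 1)

/-- A sample. -/
abbrev Sample := Fin (D.n + 1) → D.Blk

/-- The value of a block. -/
noncomputable def blk (b : D.Blk) : H →L[ℂ] H := D.u b.1 * D.f b.2.1 * D.u b.2.2

/-- The partner of a block. -/
noncomputable def blk' (b : D.Blk) : H →L[ℂ] H := D.GM b.2.2 * D.f' b.2.1 * D.GM b.1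

/-- The product of the blocks before `l`. -/
noncomputable def pre (l : Fin (D.n + 1)) (ω : D.Sample) : H →L[ℂ] H :=
  ((List.ofFn fun k => D.blk (ω k)).take l).prod

/-- The partner of `pre`. -/
noncomputable def pre' (l : Fin (D.n + 1)) (ω : D.Sample) : H →L[ℂ] H :=
  ((List.ofFn fun k => D.blk' (ω k)).take l).reverse.prod

/-- The product of the blocks after `l`. -/
noncomputable def post (l : Fin (D.n + 1)) (ω : D.Sample) : H →L[ℂ] H :=
  ((List.ofFn fun k => D.blk (ω k)).drop (l + 1)).prod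

/-- The partner of `post`. -/
noncomputable def post' (l : Fin (D.n + 1)) (ω : D.Sample) : H →L[ℂ] H :=
  ((List.ofFn fun k => D.blk' (ω k)).drop (l + 1)).reverse.prod

/-- The word before the cut. -/
noncomputable def A (l : Fin (D.n + 1)) (ω : D.Sample) : H →L[ℂ] H := D.pre l ω * D.u (ω l).1

/-- The word after the cut. -/
noncomputable def B (l : Fin (D.n + 1)) (ω : D.Sample) : H →L[ℂ] H := D.u (ω l).2.2 * D.post l ω

/-- The whole word. -/
noncomputable def w (ω : D.Sample) : H →L[ℂ] H := (List.ofFn fun k => D.blk (ω k)).prod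

/-- `A` in the algebra `N`. -/
noncomputable def a (l : Fin (D.n + 1)) (ω : D.Sample) : H →L[ℂ] H :=
  D.π (D.pre l ω) * D.u (ω l).1

/-- `B*` in the algebra `N`. -/
noncomputable def b (l : Fin (D.n + 1)) (ω : D.Sample) : H →L[ℂ] H :=
  D.π (star (D.post l ω)) * star (D.u (ω l).2.2)

/-- `A` in the commutant of `N`. -/
noncomputable def a' (l : Fin (D.n + 1)) (ω : D.Sample) : H →L[ℂ] H :=
  D.G (ω l).1 * D.Q (D.pre l ω) (D.pre' l ω)

/-- `B*` in the commutant of `N`. -/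
noncomputable def b' (l : Fin (D.n + 1)) (ω : D.Sample) : H →L[ℂ] H :=
  star (D.G (ω l).2.2) * D.Q (star (D.post l ω)) (star (D.post' l ω))

/-- The test element of one cut. -/
noncomputable def kk (l : Fin (D.n + 1)) (ω : D.Sample) (k : H →L[ℂ] H) : H →L[ℂ] H :=
  star (D.b' l ω) * star k * D.a' l ω

/-- One cut. -/
noncomputable def term (l : Fin (D.n + 1)) (ω : D.Sample) (x k : H →L[ℂ] H) : ℂ :=
  ⟪D.L (D.kk l ω k), D.L (D.A l ω * x * D.B l ω)⟫_ℂ

/-- The bilinear form of the word. -/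
noncomputable def F (x k : H →L[ℂ] H) : ℂ :=
  avg fun ω : D.Sample => avg fun l => D.term l ω x k

theorem w_eq (l : Fin (D.n + 1)) (ω : D.Sample) :
    D.w ω = D.A l ω * D.f (ω l).2.1 * D.B l ω := by
  set L := List.ofFn fun k => D.blk (ω k) with hL
  have hl : (l : ℕ) < L.length := by rw [hL, List.length_ofFn]; exact l.2
  have h1 : L = L.take l ++ L[(l : ℕ)] :: L.drop (l + 1) := by
    rw [List.getElem_cons_drop, List.take_append_drop]
  have h2 : L[(l : ℕ)] = D.blk (ω l) := by simp only [hL, List.getElem_ofFn]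
  show L.prod = _
  rw [h1, List.prod_append, List.prod_cons, h2]
  rw [A, B, pre, post, ← hL, blk]
  simp only [mul_assoc]

theorem take_congr {E : Type*} (g : D.Blk → E) {l : Fin (D.n + 1)} {ω ω' : D.Sample}
    (h : ∀ k, k < l → ω k = ω' k) :
    (List.ofFn fun k => g (ω k)).take l = (List.ofFn fun k => g (ω' k)).take l := by
  refine List.ext_getElem (by simp) fun i hi hi' => ?_
  simp only [List.length_take, List.length_ofFn, lt_min_iff] at hi
  simp only [List.getElem_take, List.getElem_ofFn]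
  exact congrArg g (h ⟨i, hi.2⟩ hi.1)

theorem drop_congr {E : Type*} (g : D.Blk → E) {l : Fin (D.n + 1)} {ω ω' : D.Sample}
    (h : ∀ k, l < k → ω k = ω' k) :
    (List.ofFn fun k => g (ω k)).drop (l + 1) = (List.ofFn fun k => g (ω' k)).drop (l + 1) := by
  refine List.ext_getElem (by simp) fun i hi hi' => ?_
  simp only [List.length_drop, List.length_ofFn] at hi
  simp only [List.getElem_drop, List.getElem_ofFn]
  exact congrArg g (h ⟨l + 1 + i, by omega⟩ (by show (l : ℕ) < l + 1 + i; omega))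

theorem pre_congr {l : Fin (D.n + 1)} {ω ω' : D.Sample} (h : ∀ k, k < l → ω k = ω' k) :
    D.pre l ω = D.pre l ω' ∧ D.pre' l ω = D.pre' l ω' :=
  ⟨congrArg List.prod (D.take_congr _ h),
    congrArg (fun L : List (H →L[ℂ] H) => L.reverse.prod) (D.take_congr _ h)⟩

theorem post_congr {l : Fin (D.n + 1)} {ω ω' : D.Sample} (h : ∀ k, l < k → ω k = ω' k) :
    D.post l ω = D.post l ω' ∧ D.post' l ω = D.post' l ω' :=
  ⟨congrArg List.prod (D.drop_congr _ h),
    congrArg (fun L : List (H →L[ℂ] H) => L.reverse.prod) (D.drop_congr _ h)⟩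

/-- The standing assumptions. -/
structure Ok (M N : VonNeumannAlgebra H) (Ω : H) (ε K η Λ : ℝ) : Prop where
  omega_norm : ‖Ω‖ = 1
  u_M : ∀ i, D.u i ∈ M
  u_N : ∀ i, D.u i ∈ N
  u_unit : ∀ i, D.u i ∈ unitary (H →L[ℂ] H)
  GM_mem : ∀ i, D.GM i ∈ M.commutant
  GM_unit : ∀ i, D.GM i ∈ unitary (H →L[ℂ] H)
  GM_omega : ∀ i, D.u i Ω = D.GM i Ω
  G_N : ∀ i, D.G i ∈ N.commutant
  G_unit : ∀ i, D.G i ∈ unitary (H →L[ℂ] H)
  u_omega : ∀ i, D.u i Ω = D.G i Ω
  f_mem : ∀ i, D.f i ∈ M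
  f_unit : ∀ i, D.f i ∈ unitary (H →L[ℂ] H)
  f'_mem : ∀ i, D.f' i ∈ M.commutant
  f'_unit : ∀ i, D.f' i ∈ unitary (H →L[ℂ] H)
  π_ok : ∀ x ∈ M, x ∈ unitary (H →L[ℂ] H) → D.π x ∈ N ∧ ‖D.π x‖ ≤ 1 ∧ ‖D.π x - x‖ ≤ ε
  Q_ok : ∀ x ∈ M, x ∈ unitary (H →L[ℂ] H) → ∀ x' ∈ M.commutant, x' ∈ unitary (H →L[ℂ] H) →
    D.Q x x' ∈ N.commutant ∧ ‖D.Q x x'‖ ≤ 1 ∧
      (∃ p ∈ N, ‖p‖ ≤ Λ ∧ D.Q x x' Ω = p Ω) ∧
      (∃ p' ∈ N.commutant, ‖p'‖ ≤ Λ ∧ D.jm (D.Q x x') Ω = p' Ω) ∧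
      ‖D.Q x x' Ω - D.π x Ω‖ ≤ K * ‖x Ω - x' Ω‖ + η
  L_norm : ∀ T : H →L[ℂ] H, ‖D.L T‖ ≤ (‖T Ω‖ + ‖star T Ω‖) / 2
  L_cross : ∀ k ∈ N.commutant, ∀ y ∈ N, ⟪D.L k, D.L y⟫_ℂ = ⟪k Ω, y Ω⟫_ℂ
  L_self : ∀ k₁ ∈ N.commutant, ∀ k₂ ∈ N.commutant,
    ⟪D.L k₁, D.L k₂⟫_ℂ = ⟪k₁ Ω, D.jm (star k₂) Ω⟫_ℂ
  jm_mem : ∀ k ∈ N.commutant, D.jm k ∈ N
  jm_norm : ∀ k ∈ N.commutant, ‖D.jm k‖ ≤ ‖k‖
  jm_mul : ∀ k₁ ∈ N.commutant, ∀ k₂ ∈ N.commutant, D.jm (k₁ * k₂) = D.jm k₁ * D.jm k₂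
  jm_star : ∀ k ∈ N.commutant, D.jm (star k) = star (D.jm k)

/-- The conjugates of `d* d` by the family `v` flatten to a central contraction at `Ω`. -/
def Flat (N : VonNeumannAlgebra H) (Ω : H) (θ : ℝ) {ι : Type} [Fintype ι]
    (v : ι → H →L[ℂ] H) (d : H →L[ℂ] H) : Prop :=
  ∃ h ∈ N, h ∈ N.commutant ∧ ‖h‖ ≤ 1 ∧
    ‖avg (fun i => star (v i) * (star d * d) * v i) Ω - h Ω‖ ≤ θ

/-- What the markers do to the two test elements. -/
structure Tests (N : VonNeumannAlgebra H) (Ω : H) (θ : ℝ) (d₁ d : H →L[ℂ] H) : Prop where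
  mem₁ : d₁ ∈ N.commutant
  mem : d ∈ N.commutant
  omega₁ : ‖d₁ Ω‖ ≤ 1
  omega : ‖d Ω‖ ≤ 1
  flat₁ : Flat N Ω θ D.G d₁
  flat : Flat N Ω θ (fun i => star (D.G i)) d
  jflat₁ : Flat N Ω θ (fun i => D.jm (D.G i)) (D.jm d₁)
  jflat : Flat N Ω θ (fun i => D.jm (star (D.G i))) (D.jm d)

/-- The markers make the letters central up to `σ`, seen from any pair of partners. -/
structure Cent (M : VonNeumannAlgebra H) (Ω : H) (σ : ℝ) : Prop where
  left : ∀ P ∈ M, P ∈ unitary (H →L[ℂ] H) → ∀ P' ∈ M.commutant, P' ∈ unitary (H →L[ℂ] H) →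
    (⟪P Ω, P' Ω⟫_ℂ).re - σ ≤ (⟪P (avg fun q : Fin (D.r + 1) × Fin (D.m + 1) =>
      star (D.GM q.1) (D.u q.1 (star (D.f' q.2) (D.f q.2 Ω)))), P' Ω⟫_ℂ).re
  right : ∀ P ∈ M, P ∈ unitary (H →L[ℂ] H) → ∀ P' ∈ M.commutant, P' ∈ unitary (H →L[ℂ] H) →
    (⟪P Ω, P' Ω⟫_ℂ).re - σ ≤ (⟪P Ω, P' (avg fun q : Fin (D.r + 1) × Fin (D.m + 1) =>
      star (D.u q.1) (D.GM q.1 (star (D.f q.2) (D.f' q.2 Ω))))⟫_ℂ).re

/-- Replace the left marker of block `l`. -/
def setL (l : Fin (D.n + 1)) (ω : D.Sample) (j : Fin (D.r + 1)) : D.Sample :=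
  Function.update ω l (j, (ω l).2)

/-- Replace the middle letter of block `l`. -/
def setM (l : Fin (D.n + 1)) (ω : D.Sample) (i : Fin (D.m + 1)) : D.Sample :=
  Function.update ω l ((ω l).1, i, (ω l).2.2)

/-- Replace the right marker of block `l`. -/
def setR (l : Fin (D.n + 1)) (ω : D.Sample) (j : Fin (D.r + 1)) : D.Sample :=
  Function.update ω l ((ω l).1, (ω l).2.1, j)

theorem avgR_setL (l : Fin (D.n + 1)) (F : D.Sample → ℝ) :
    (avgR fun ω => avgR fun j => F (D.setL l ω j)) = avgR F :=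
  A.avgR_resample _ (fun ω => (ω l).1) (fun ω j => by simp [setL]) (fun ω => by simp [setL])
    (fun ω j j' => by simp [setL]) F

theorem avgR_setR (l : Fin (D.n + 1)) (F : D.Sample → ℝ) :
    (avgR fun ω => avgR fun j => F (D.setR l ω j)) = avgR F :=
  A.avgR_resample _ (fun ω => (ω l).2.2) (fun ω j => by simp [setR]) (fun ω => by simp [setR])
    (fun ω j j' => by simp [setR]) F

theorem avgR_setM (l : Fin (D.n + 1)) (F : D.Sample → ℝ) :
    (avgR fun ω => avgR fun i => F (D.setM l ω i)) = avgR F :=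
  A.avgR_resample _ (fun ω => (ω l).2.1) (fun ω j => by simp [setM]) (fun ω => by simp [setM])
    (fun ω j j' => by simp [setM]) F

theorem avg_setM {E : Type*} [AddCommGroup E] [Module ℂ E] (l : Fin (D.n + 1))
    (F : D.Sample → E) : (avg fun ω => avg fun i => F (D.setM l ω i)) = avg F :=
  A.avg_resample _ (fun ω => (ω l).2.1) (fun ω j => by simp [setM]) (fun ω => by simp [setM])
    (fun ω j j' => by simp [setM]) F

/-- Changing only block `l` keeps the outer parts of the cut at `l`. -/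
theorem parts_update (l : Fin (D.n + 1)) (ω : D.Sample) (q : D.Blk) :
    D.pre l (Function.update ω l q) = D.pre l ω ∧ D.pre' l (Function.update ω l q) = D.pre' l ω ∧
      D.post l (Function.update ω l q) = D.post l ω ∧
      D.post' l (Function.update ω l q) = D.post' l ω :=
  ⟨(D.pre_congr fun _ hk => Function.update_of_ne hk.ne _ _).1,
    (D.pre_congr fun _ hk => Function.update_of_ne hk.ne _ _).2,
    (D.post_congr fun _ hk => Function.update_of_ne hk.ne' _ _).1,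
    (D.post_congr fun _ hk => Function.update_of_ne hk.ne' _ _).2⟩

theorem A_setM (l : Fin (D.n + 1)) (ω : D.Sample) (i : Fin (D.m + 1)) :
    D.A l (D.setM l ω i) = D.A l ω ∧ D.B l (D.setM l ω i) = D.B l ω ∧
      D.a' l (D.setM l ω i) = D.a' l ω ∧ D.b' l (D.setM l ω i) = D.b' l ω := by
  obtain ⟨h1, h2, h3, h4⟩ := D.parts_update l ω ((ω l).1, i, (ω l).2.2)
  simp [A, B, a', b', setM, h1, h2, h3, h4]

/-- Changes beyond `l` are not seen before it. -/
theorem a'_congr {l : Fin (D.n + 1)} {ω ω' : D.Sample} (h : ∀ k, k < l → ω k = ω' k)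
    (h1 : (ω l).1 = (ω' l).1) : D.a' l ω = D.a' l ω' := by
  rw [a', a', (D.pre_congr h).1, (D.pre_congr h).2, h1]

/-- Changes before `l` are not seen beyond it. -/
theorem b'_congr {l : Fin (D.n + 1)} {ω ω' : D.Sample} (h : ∀ k, l < k → ω k = ω' k)
    (h1 : (ω l).2.2 = (ω' l).2.2) : D.b' l ω = D.b' l ω' := by
  rw [b', b', (D.post_congr h).1, (D.post_congr h).2, h1]

end Data

variable {M N : VonNeumannAlgebra H} {Ω : H} {D : Data H} {ε K η Λ : ℝ}

/-- Elements of an algebra commute with those of its commutant. -/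
theorem comm_of {T : H →L[ℂ] H} (hT : T ∈ M) {S : H →L[ℂ] H} (hS : S ∈ M.commutant) :
    S * T = T * S :=
  (VonNeumannAlgebra.mem_commutant_iff.1 hS T hT).symm

theorem comm_apply {T : H →L[ℂ] H} (hT : T ∈ M) {S : H →L[ℂ] H} (hS : S ∈ M.commutant) (v : H) :
    S (T v) = T (S v) := by
  have := congrArg (fun R : H →L[ℂ] H => R v) (comm_of hT hS)
  simpa [mul_apply_eq_comp] using this

theorem norm_unitary_apply {U : H →L[ℂ] H} (hU : U ∈ unitary (H →L[ℂ] H)) (v : H) :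
    ‖U v‖ = ‖v‖ := by
  have h := ContinuousLinearMap.inner_map_map_of_mem_unitary hU v v
  rw [inner_self_eq_norm_sq_to_K, inner_self_eq_norm_sq_to_K] at h
  have h' : (‖U v‖ : ℝ) ^ 2 = ‖v‖ ^ 2 := by exact_mod_cast h
  exact (pow_left_inj₀ (norm_nonneg _) (norm_nonneg _) two_ne_zero).1 h'

theorem norm_unitary_le {U : H →L[ℂ] H} (hU : U ∈ unitary (H →L[ℂ] H)) : ‖U‖ ≤ 1 :=
  U.opNorm_le_bound zero_le_one fun v => by rw [norm_unitary_apply hU, one_mul]

theorem star_apply_self {U : H →L[ℂ] H} (hU : U ∈ unitary (H →L[ℂ] H)) (v : H) :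
    star U (U v) = v := by
  have := congrArg (fun R : H →L[ℂ] H => R v) (Unitary.star_mul_self_of_mem hU)
  simpa [mul_apply_eq_comp] using this

theorem apply_star_self {U : H →L[ℂ] H} (hU : U ∈ unitary (H →L[ℂ] H)) (v : H) :
    U (star U v) = v := by
  have := congrArg (fun R : H →L[ℂ] H => R v) (Unitary.mul_star_self_of_mem hU)
  simpa [mul_apply_eq_comp] using this

omit [CompleteSpace H] in
theorem norm_le_of_contr {T : H →L[ℂ] H} (hT : ‖T‖ ≤ 1) (v : H) : ‖T v‖ ≤ ‖v‖ :=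
  (T.le_of_opNorm_le hT v).trans (one_mul _).le

namespace Data

theorem Ok.star_u_omega (h : D.Ok M N Ω ε K η Λ) (i : Fin (D.r + 1)) :
    star (D.u i) Ω = star (D.G i) Ω := by
  have h1 : star (D.u i) (star (D.G i) (D.u i Ω)) = star (D.u i) Ω := by
    rw [h.u_omega, star_apply_self (h.G_unit i)]
  rw [← h1, comm_apply (h.u_N i) (star_mem (h.G_N i)), star_apply_self (h.u_unit i)]

theorem Ok.blk_mem (h : D.Ok M N Ω ε K η Λ) (b : D.Blk) :
    D.blk b ∈ M ∧ D.blk b ∈ unitary (H →L[ℂ] H) ∧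
      D.blk' b ∈ M.commutant ∧ D.blk' b ∈ unitary (H →L[ℂ] H) :=
  ⟨mul_mem (mul_mem (h.u_M _) (h.f_mem _)) (h.u_M _),
    mul_mem (mul_mem (h.u_unit _) (h.f_unit _)) (h.u_unit _),
    mul_mem (mul_mem (h.GM_mem _) (h.f'_mem _)) (h.GM_mem _),
    mul_mem (mul_mem (h.GM_unit _) (h.f'_unit _)) (h.GM_unit _)⟩

theorem Ok.prod_mem (h : D.Ok M N Ω ε K η Λ) (L : List D.Blk) :
    (L.map D.blk).prod ∈ M ∧ (L.map D.blk).prod ∈ unitary (H →L[ℂ] H) ∧
      (L.map D.blk').reverse.prod ∈ M.commutant ∧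
      (L.map D.blk').reverse.prod ∈ unitary (H →L[ℂ] H) := by
  induction L with
  | nil => exact ⟨by simp, by simp, by simp, by simp⟩
  | cons b L ih =>
    obtain ⟨b1, b2, b3, b4⟩ := h.blk_mem b
    simp only [List.map_cons, List.prod_cons, List.reverse_cons, List.prod_append, List.prod_nil,
      mul_one]
    exact ⟨mul_mem b1 ih.1, mul_mem b2 ih.2.1, mul_mem ih.2.2.1 b3, mul_mem ih.2.2.2 b4⟩

theorem pre_eq (l : Fin (D.n + 1)) (ω : D.Sample) :
    D.pre l ω = (((List.ofFn ω).take l).map D.blk).prod ∧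
      D.pre' l ω = (((List.ofFn ω).take l).map D.blk').reverse.prod := by
  simp [pre, pre', List.map_take, List.map_ofFn, Function.comp_def]

theorem post_eq (l : Fin (D.n + 1)) (ω : D.Sample) :
    D.post l ω = (((List.ofFn ω).drop (l + 1)).map D.blk).prod ∧
      D.post' l ω = (((List.ofFn ω).drop (l + 1)).map D.blk').reverse.prod := by
  simp [post, post', List.map_drop, List.map_ofFn, Function.comp_def]

theorem Ok.pre_mem (h : D.Ok M N Ω ε K η Λ) (l : Fin (D.n + 1)) (ω : D.Sample) :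
    D.pre l ω ∈ M ∧ D.pre l ω ∈ unitary (H →L[ℂ] H) ∧
      D.pre' l ω ∈ M.commutant ∧ D.pre' l ω ∈ unitary (H →L[ℂ] H) := by
  rw [(D.pre_eq l ω).1, (D.pre_eq l ω).2]
  exact h.prod_mem _

theorem Ok.post_mem (h : D.Ok M N Ω ε K η Λ) (l : Fin (D.n + 1)) (ω : D.Sample) :
    D.post l ω ∈ M ∧ D.post l ω ∈ unitary (H →L[ℂ] H) ∧
      D.post' l ω ∈ M.commutant ∧ D.post' l ω ∈ unitary (H →L[ℂ] H) := by
  rw [(D.post_eq l ω).1, (D.post_eq l ω).2]
  exact h.prod_mem _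

theorem Ok.A_mem (h : D.Ok M N Ω ε K η Λ) (l : Fin (D.n + 1)) (ω : D.Sample) :
    D.A l ω ∈ unitary (H →L[ℂ] H) ∧ D.B l ω ∈ unitary (H →L[ℂ] H) :=
  ⟨mul_mem (h.pre_mem l ω).2.1 (h.u_unit _), mul_mem (h.u_unit _) (h.post_mem l ω).2.1⟩

theorem Ok.w_mem (h : D.Ok M N Ω ε K η Λ) (ω : D.Sample) :
    D.w ω ∈ M ∧ D.w ω ∈ unitary (H →L[ℂ] H) := by
  have h' := h.prod_mem (List.ofFn ω)
  simp only [List.map_ofFn] at h'
  exact ⟨h'.1, h'.2.1⟩

/-- The approximants in `N` and in its commutant. -/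
theorem Ok.a_mem (h : D.Ok M N Ω ε K η Λ) (l : Fin (D.n + 1)) (ω : D.Sample) :
    D.a l ω ∈ N ∧ D.b l ω ∈ N ∧ D.a' l ω ∈ N.commutant ∧ D.b' l ω ∈ N.commutant ∧
      ‖D.a l ω‖ ≤ 1 ∧ ‖D.b l ω‖ ≤ 1 ∧ ‖D.a' l ω‖ ≤ 1 ∧ ‖D.b' l ω‖ ≤ 1 := by
  obtain ⟨p1, p2, p3, p4⟩ := h.pre_mem l ω
  obtain ⟨q1, q2, q3, q4⟩ := h.post_mem l ω
  obtain ⟨πa, na, -⟩ := h.π_ok _ p1 p2
  obtain ⟨πb, nb, -⟩ := h.π_ok _ (star_mem q1) (Unitary.star_mem q2)
  obtain ⟨Qa, nQa, -⟩ := h.Q_ok _ p1 p2 _ p3 p4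
  obtain ⟨Qb, nQb, -⟩ := h.Q_ok _ (star_mem q1) (Unitary.star_mem q2) _ (star_mem q3)
    (Unitary.star_mem q4)
  exact ⟨mul_mem πa (h.u_N _), mul_mem πb (star_mem (h.u_N _)), mul_mem (h.G_N _) Qa,
    mul_mem (star_mem (h.G_N _)) Qb,
    (norm_mul_le _ _).trans (mul_le_one₀ na (norm_nonneg _) (norm_unitary_le (h.u_unit _))),
    (norm_mul_le _ _).trans (mul_le_one₀ nb (norm_nonneg _)
      (norm_unitary_le (Unitary.star_mem (h.u_unit _)))),
    (norm_mul_le _ _).trans (mul_le_one₀ (norm_unitary_le (h.G_unit _)) (norm_nonneg _) nQa),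
    (norm_mul_le _ _).trans (mul_le_one₀ (norm_unitary_le (Unitary.star_mem (h.G_unit _)))
      (norm_nonneg _) nQb)⟩

end Data

end Vale.Agent.P096.III.Word
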