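import Vale.Agent.P096.III.Word.Estimate

/-!
# P096 III word: the estimate

`F x k` is linear in `x` and in `k`, `‖F x k‖ ≤ ‖x‖ ‖k‖`, and at a letter `z` it is within
`O(ε)` of `⟪d₁ Ω, z d Ω⟫` for `k = d₁* d` when the markers flatten `d` and `d₁`.
-/

namespace Vale.Agent.P096.III.Word

open scoped InnerProductSpace
open Vale.Agent.P082 (avg avgR)
open Vale.Agent.P096.A (avgR_mono avgR_smul avgR_finsum)
open Finset

universe u

variable {H : Type u} [NormedAddCommGroup H] [InnerProductSpace ℂ H] [CompleteSpace H]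
variable {M N : VonNeumannAlgebra H} {Ω : H}

omit [CompleteSpace H] in
theorem avgR_le_sqrt {α : Type*} [Fintype α] [Nonempty α] (F : α → ℝ) :
    avgR F ≤ √(avgR fun a => F a ^ 2) := by
  refine (le_abs_self _).trans (Real.le_sqrt_of_sq_le ?_)
  rw [sq_abs]
  have h0 : 0 ≤ avgR fun a => (F a - avgR F) ^ 2 :=
    Vale.Agent.P082.Avg.avgR_nonneg fun a => sq_nonneg _
  have e : (fun a => (F a - avgR F) ^ 2) =
      fun a => F a ^ 2 - 2 * avgR F * F a + avgR F ^ 2 := funext fun a => by ring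
  rw [e, avgR_add, Vale.Agent.P082.Avg.avgR_sub, avgR_smul, avgR_const] at h0
  nlinarith

theorem norm_avg_le_avgR {α : Type*} [Fintype α] {E : Type*} [NormedAddCommGroup E]
    [NormedSpace ℂ E] (f : α → E) : ‖avg f‖ ≤ avgR fun a => ‖f a‖ := by
  unfold avg avgR
  rw [norm_smul, norm_inv, Complex.norm_natCast]
  exact mul_le_mul_of_nonneg_left (norm_sum_le _ _) (inv_nonneg.2 (Nat.cast_nonneg _))

namespace Data

variable {D : Data H} {ε K η Λ σ θ : ℝ} {d₁ d : H →L[ℂ] H}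

theorem avg_single (l : Fin (D.n + 1)) (i₀ : Fin (D.m + 1)) (F : D.Sample → ℂ)
    (hF : ∀ ω i, F (D.setM l ω i) = F ω) :
    (avg fun ω => (ind {l} i₀ ω : ℂ) * F ω) = ((D.m : ℂ) + 1)⁻¹ * avg F := by
  rw [← D.avg_setM l]
  have e : ∀ ω, (avg fun i => (ind {l} i₀ (D.setM l ω i) : ℂ) * F (D.setM l ω i)) =
      ((D.m : ℂ) + 1)⁻¹ * F ω := fun ω => by
    have e1 : ∀ i, ind {l} i₀ (D.setM l ω i) = if i = i₀ then 1 else 0 := fun i => by
      simp [ind, setM]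
    simp [avg, hF, e1, apply_ite, ite_mul]
  rw [Vale.Agent.P082.Avg.avg_congr e]
  simp only [avg, smul_eq_mul, ← Finset.mul_sum]
  ring

theorem F_eq (i₀ : Fin (D.m + 1)) (k : H →L[ℂ] H) :
    D.F (D.f i₀) k = avg fun ω => ⟪SS i₀ ω k, D.L (D.w ω)⟫_ℂ := by
  have e : ∀ ω, ⟪SS i₀ ω k, D.L (D.w ω)⟫_ℂ =
      ((((D.m : ℝ) + 1) / ((D.n : ℝ) + 1) : ℝ) : ℂ) *
        ∑ l, (ind {l} i₀ ω : ℂ) * D.term l ω (D.f i₀) k := by
    intro ω
    rw [SS, inner_smul_left, Complex.conj_ofReal, sum_inner]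
    congr 1
    refine Finset.sum_congr rfl fun l _ => ?_
    rw [inner_smul_left, Complex.conj_ofReal]
    by_cases hl : (ω l).2.1 = i₀
    · rw [term, ← hl, ← D.w_eq]
    · simp [ind, hl]
  rw [Vale.Agent.P082.Avg.avg_congr e]
  have e2 : (avg fun ω : D.Sample => ((((D.m : ℝ) + 1) / ((D.n : ℝ) + 1) : ℝ) : ℂ) *
      ∑ l, (ind {l} i₀ ω : ℂ) * D.term l ω (D.f i₀) k) =
      ((((D.m : ℝ) + 1) / ((D.n : ℝ) + 1) : ℝ) : ℂ) *
        ∑ l, avg fun ω : D.Sample => (ind {l} i₀ ω : ℂ) * D.term l ω (D.f i₀) k := by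
    simp only [avg, smul_eq_mul, ← Finset.mul_sum]
    rw [Finset.sum_comm]
    ring
  rw [e2, Finset.sum_congr rfl fun l _ => avg_single l i₀ _ fun ω i => by
    obtain ⟨h1, h2, h3, h4⟩ := D.A_setM l ω i
    rw [term, term, kk, kk, h1, h2, h3, h4]]
  rw [← Finset.mul_sum, ← mul_assoc]
  have h1 : ((D.m : ℂ) + 1) ≠ 0 := Nat.cast_add_one_ne_zero _
  have h2 : ((D.n : ℂ) + 1) ≠ 0 := Nat.cast_add_one_ne_zero _
  push_cast
  simp only [F, avg, Fintype.card_fin, smul_eq_mul, ← Finset.mul_sum]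
  rw [Finset.sum_comm (γ := D.Sample)]
  push_cast
  field_simp

/-- The left approximants differ by little after the test element. -/
theorem left_diff (h : D.Ok M N Ω ε K η Λ) (ht : Tests (D := D) N Ω θ d₁ d) (hc : D.Cent M Ω σ)
    (hσ : 0 ≤ σ) (hθ : 0 ≤ θ) (l : Fin (D.n + 1)) :
    (avgR fun ω => ‖d₁ (D.a' l ω Ω - D.a l ω Ω)‖ ^ 2) ≤
      4 * K ^ 2 * ((D.n + 1) * σ) + 2 * η ^ 2 + θ * (Λ + 1) ^ 2 := by
  have hb : avgR (fun ω => ‖d₁ (D.a' l ω Ω - D.a l ω Ω)‖ ^ 2) ≤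
      avgR fun ω => 2 * K ^ 2 * ‖D.pre l ω Ω - D.pre' l ω Ω‖ ^ 2 +
        (2 * η ^ 2 + θ * (Λ + 1) ^ 2) := by
    rw [← D.avgR_setL l]
    refine avgR_mono fun ω => ?_
    obtain ⟨h1, h2, h3, h4⟩ := h.pre_mem l ω
    obtain ⟨hπ, hπn, -⟩ := h.π_ok _ h1 h2
    obtain ⟨-, -, ⟨p, hpN, hpn, hpe⟩, -, hd⟩ := h.Q_ok _ h1 h2 _ h3 h4
    set p₁ := p - D.π (D.pre l ω) with hp₁
    have hp : p₁ ∈ N := sub_mem hpN hπ
    have e : ∀ j, ‖d₁ (D.a' l (D.setL l ω j) Ω - D.a l (D.setL l ω j) Ω)‖ =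
        ‖d₁ (D.G j (p₁ Ω))‖ := fun j => by
      obtain ⟨e1, e2, -, -⟩ := D.parts_update l ω (j, (ω l).2)
      rw [hp₁, sub_apply, ← hpe]
      simp [a, a', setL, e1, e2, comm_apply hπ (h.G_N j), h.u_omega j]
    simp only [e]
    refine (avgR_flat h.omega_norm ht.flat₁ (commute_of hp ht.mem₁)
      (commute_of hp (star_mem ht.mem₁)) (fun i => commute_of hp (h.G_N i))
      (fun i => commute_of hp (star_mem (h.G_N i))) fun _ _ h' => commute_of hp h').trans ?_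
    rw [← add_assoc, mul_comm θ]
    refine add_le_add ?_ (mul_le_mul_of_nonneg_right (pow_le_pow_left₀ (norm_nonneg _)
      ((norm_sub_le _ _).trans (add_le_add hpn hπn)) 2) hθ)
    rw [hp₁, sub_apply, ← hpe]
    refine (pow_le_pow_left₀ (norm_nonneg _) hd 2).trans ?_
    nlinarith [sq_nonneg (K * ‖D.pre l ω Ω - D.pre' l ω Ω‖ - η)]
  refine hb.trans ?_
  rw [avgR_add, avgR_const, avgR_smul]
  have h5 := pre_central h hc l
  have h6 : ((l : ℕ) : ℝ) * σ ≤ ((D.n : ℝ) + 1) * σ :=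
    mul_le_mul_of_nonneg_right (by exact_mod_cast l.2.le) hσ
  nlinarith [mul_le_mul_of_nonneg_left (h5.trans_eq (mul_assoc _ _ _)) (sq_nonneg K),
    mul_le_mul_of_nonneg_left h6 (sq_nonneg K)]

/-- The right approximants differ by little after the test element. -/
theorem right_diff (h : D.Ok M N Ω ε K η Λ) (ht : Tests (D := D) N Ω θ d₁ d) (hc : D.Cent M Ω σ)
    (hσ : 0 ≤ σ) (hθ : 0 ≤ θ) (l : Fin (D.n + 1)) :
    (avgR fun ω => ‖d (D.b' l ω Ω - D.b l ω Ω)‖ ^ 2) ≤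
      4 * K ^ 2 * ((D.n + 1) * σ) + 2 * η ^ 2 + θ * (Λ + 1) ^ 2 := by
  have hb : avgR (fun ω => ‖d (D.b' l ω Ω - D.b l ω Ω)‖ ^ 2) ≤
      avgR fun ω => 2 * K ^ 2 * ‖D.post l ω Ω - D.post' l ω Ω‖ ^ 2 +
        (2 * η ^ 2 + θ * (Λ + 1) ^ 2) := by
    rw [← D.avgR_setR l]
    refine avgR_mono fun ω => ?_
    obtain ⟨q1, q2, q3, q4⟩ := h.post_mem l ω
    obtain ⟨hπ, hπn, -⟩ := h.π_ok _ (star_mem q1) (Unitary.star_mem q2)
    obtain ⟨-, -, ⟨p, hpN, hpn, hpe⟩, -, hd⟩ := h.Q_ok _ (star_mem q1) (Unitary.star_mem q2) _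
      (star_mem q3) (Unitary.star_mem q4)
    set p₁ := p - D.π (star (D.post l ω)) with hp₁
    have hp : p₁ ∈ N := sub_mem hpN hπ
    have e : ∀ j, ‖d (D.b' l (D.setR l ω j) Ω - D.b l (D.setR l ω j) Ω)‖ =
        ‖d (star (D.G j) (p₁ Ω))‖ := fun j => by
      obtain ⟨-, -, e1, e2⟩ := D.parts_update l ω ((ω l).1, (ω l).2.1, j)
      rw [hp₁, sub_apply, ← hpe]
      simp [b, b', setR, e1, e2, comm_apply hπ (star_mem (h.G_N j)), h.star_u_omega j]
    simp only [e]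
    refine (avgR_flat h.omega_norm ht.flat (commute_of hp ht.mem)
      (commute_of hp (star_mem ht.mem)) (fun i => commute_of hp (star_mem (h.G_N i)))
      (fun i => commute_of hp (by rw [star_star]; exact h.G_N i))
      fun _ _ h' => commute_of hp h').trans ?_
    rw [← add_assoc, mul_comm θ]
    refine add_le_add ?_ (mul_le_mul_of_nonneg_right (pow_le_pow_left₀ (norm_nonneg _)
      ((norm_sub_le _ _).trans (add_le_add hpn hπn)) 2) hθ)
    rw [hp₁, sub_apply, ← hpe]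
    refine (pow_le_pow_left₀ (norm_nonneg _) hd 2).trans ?_
    have e3 : ‖star (D.post l ω) Ω - star (D.post' l ω) Ω‖ = ‖D.post l ω Ω - D.post' l ω Ω‖ := by
      rw [← norm_unitary_apply q4 (star (D.post l ω) Ω - star (D.post' l ω) Ω),
        ← norm_unitary_apply q2 (D.post' l ω (star (D.post l ω) Ω - star (D.post' l ω) Ω)),
        map_sub, map_sub, apply_star_self q4, ← comm_apply q1 q3, apply_star_self q2,
        norm_sub_rev]
    rw [e3]
    nlinarith [sq_nonneg (K * ‖D.post l ω Ω - D.post' l ω Ω‖ - η)]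
  refine hb.trans ?_
  rw [avgR_add, avgR_const, avgR_smul]
  nlinarith [mul_le_mul_of_nonneg_left ((post_central h hc hσ l).trans_eq (mul_assoc _ _ _))
    (sq_nonneg K)]

theorem norm_mul_sub_mul {a b a' b' : H →L[ℂ] H} (hb : ‖b‖ ≤ 1) (ha' : ‖a'‖ ≤ 1) {s t : ℝ}
    (h1 : ‖a - a'‖ ≤ s) (h2 : ‖b - b'‖ ≤ t) : ‖a * b - a' * b'‖ ≤ s + t := by
  have e : a * b - a' * b' = (a - a') * b + a' * (b - b') := by
    rw [sub_mul, mul_sub]; abel
  rw [e]
  refine (norm_add_le _ _).trans (add_le_add ?_ ?_)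
  · exact ((norm_mul_le _ _).trans (mul_le_of_le_one_right (norm_nonneg _) hb)).trans h1
  · exact ((norm_mul_le _ _).trans (mul_le_of_le_one_left (norm_nonneg _) ha')).trans h2

/-- One cut at the approximant of the word. -/
theorem value_le (h : D.Ok M N Ω ε K η Λ) (ht : Tests (D := D) N Ω θ d₁ d)
    (l : Fin (D.n + 1)) (ω : D.Sample) :
    ‖⟪D.L (D.kk l ω (star d₁ * d)), D.L (D.π (D.w ω))⟫_ℂ -
        ⟪d₁ Ω, D.f (ω l).2.1 (d Ω)⟫_ℂ‖ ≤
      3 * ε + (‖d₁ (D.a' l ω Ω - D.a l ω Ω)‖ + ‖d (D.b' l ω Ω - D.b l ω Ω)‖ +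
        2⁻¹ * (‖d₁ (D.a' l ω Ω - D.a l ω Ω)‖ ^ 2 + ‖d (D.b' l ω Ω - D.b l ω Ω)‖ ^ 2)) := by
  obtain ⟨hwM, hwu⟩ := h.w_mem ω
  obtain ⟨hyN, hy1, hyw⟩ := h.π_ok _ hwM hwu
  obtain ⟨haN, hbN, ha'N, hb'N, ha1, hb1, -, -⟩ := h.a_mem l ω
  obtain ⟨hp1, hp2, -⟩ := h.pre_mem l ω
  obtain ⟨hq1, hq2, -⟩ := h.post_mem l ω
  set y := D.π (D.w ω)
  set a := D.a l ω
  set b := D.b l ω
  set a' := D.a' l ω
  set b' := D.b' l ω
  set z := D.f (ω l).2.1
  have e1 : ⟪D.L (D.kk l ω (star d₁ * d)), D.L y⟫_ℂ = ⟪d₁ (a' Ω), y (d (b' Ω))⟫_ℂ := by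
    rw [h.L_cross _ (kk_mem h l ω (mul_mem (star_mem ht.mem₁) ht.mem)) _ hyN]
    simp only [kk, star_mul, star_star, mul_apply_eq_comp]
    rw [ContinuousLinearMap.star_eq_adjoint, ContinuousLinearMap.adjoint_inner_left,
      ContinuousLinearMap.star_eq_adjoint, ContinuousLinearMap.adjoint_inner_left,
      comm_apply hyN hb'N, comm_apply hyN ht.mem]
  have e2 : ⟪d₁ (a Ω), y (d (b Ω))⟫_ℂ = ⟪d₁ Ω, (star a * y * b) (d Ω)⟫_ℂ := by
    rw [comm_apply haN ht.mem₁, comm_apply hbN ht.mem, ← ContinuousLinearMap.adjoint_inner_right,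
      ← ContinuousLinearMap.star_eq_adjoint]
    rfl
  have hε : ‖star a * y * b - z‖ ≤ 3 * ε := by
    have hA : star (D.A l ω) * D.w ω * star (D.B l ω) = z := by
      rw [D.w_eq l, ← mul_assoc, ← mul_assoc,
        Unitary.star_mul_self_of_mem (h.A_mem l ω).1, one_mul, mul_assoc,
        Unitary.mul_star_self_of_mem (h.A_mem l ω).2, mul_one]
    have hna : ‖star a - star (D.A l ω)‖ ≤ ε := by
      rw [← star_sub, norm_star]
      show ‖D.π (D.pre l ω) * D.u (ω l).1 - D.pre l ω * D.u (ω l).1‖ ≤ ε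
      rw [← sub_mul, CStarRing.norm_mul_mem_unitary _ (h.u_unit _)]
      exact (h.π_ok _ hp1 hp2).2.2
    have hnb : ‖b - star (D.B l ω)‖ ≤ ε := by
      show ‖D.π (star (D.post l ω)) * star (D.u (ω l).2.2) -
        star (D.u (ω l).2.2 * D.post l ω)‖ ≤ ε
      rw [star_mul, ← sub_mul, CStarRing.norm_mul_mem_unitary _ (Unitary.star_mem (h.u_unit _))]
      exact (h.π_ok _ (star_mem hq1) (Unitary.star_mem hq2)).2.2
    rw [← hA]
    refine (norm_mul_sub_mul hb1 ((norm_mul_le _ _).trans (mul_le_one₀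
      (norm_unitary_le (Unitary.star_mem (h.A_mem l ω).1)) (norm_nonneg _) (norm_unitary_le hwu)))
      (norm_mul_sub_mul hy1 (norm_unitary_le (Unitary.star_mem (h.A_mem l ω).1)) hna hyw)
      hnb).trans_eq (by ring)
  have hz : ‖⟪d₁ (a Ω), y (d (b Ω))⟫_ℂ - ⟪d₁ Ω, z (d Ω)⟫_ℂ‖ ≤ 3 * ε := by
    rw [e2, ← inner_sub_right, ← sub_apply]
    refine (norm_inner_le_norm _ _).trans ((mul_le_of_le_one_left (norm_nonneg _) ht.omega₁).trans ?_)
    refine ((star a * y * b - z).le_opNorm _).trans ?_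
    exact (mul_le_of_le_one_right (norm_nonneg _) ht.omega).trans hε
  set s := ‖d₁ (a' Ω - a Ω)‖ with hs
  set t := ‖d (b' Ω - b Ω)‖ with ht'
  have hda : ‖d₁ (a Ω)‖ ≤ 1 := by
    rw [comm_apply haN ht.mem₁]; exact (norm_le_of_contr ha1 _).trans ht.omega₁
  have hdb : ‖d (b Ω)‖ ≤ 1 := by
    rw [comm_apply hbN ht.mem]; exact (norm_le_of_contr hb1 _).trans ht.omega
  have e3 : ⟪d₁ (a' Ω), y (d (b' Ω))⟫_ℂ - ⟪d₁ (a Ω), y (d (b Ω))⟫_ℂ =
      ⟪d₁ (a' Ω - a Ω), y (d (b' Ω))⟫_ℂ + ⟪d₁ (a Ω), y (d (b' Ω - b Ω))⟫_ℂ := by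
    simp only [map_sub, inner_sub_left, inner_sub_right]
    ring
  have hdb' : ‖d (b' Ω)‖ ≤ 1 + t := by
    calc ‖d (b' Ω)‖ = ‖d (b Ω) + d (b' Ω - b Ω)‖ := by rw [← map_add, add_sub_cancel]
      _ ≤ 1 + t := (norm_add_le _ _).trans (add_le_add hdb le_rfl)
  have hst : ‖⟪d₁ (a' Ω), y (d (b' Ω))⟫_ℂ - ⟪d₁ (a Ω), y (d (b Ω))⟫_ℂ‖ ≤
      s + t + 2⁻¹ * (s ^ 2 + t ^ 2) := by
    rw [e3]
    refine (norm_add_le _ _).trans ((add_le_add
      ((norm_inner_le_norm _ _).trans (mul_le_mul_of_nonneg_left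
        ((norm_le_of_contr hy1 _).trans hdb') (norm_nonneg _)))
      ((norm_inner_le_norm _ _).trans (mul_le_mul hda (norm_le_of_contr hy1 _) (norm_nonneg _)
        zero_le_one))).trans ?_)
    rw [← hs, ← ht']
    nlinarith [sq_nonneg (s - t)]
  calc ‖⟪D.L (D.kk l ω (star d₁ * d)), D.L y⟫_ℂ - ⟪d₁ Ω, z (d Ω)⟫_ℂ‖
      = ‖(⟪d₁ (a Ω), y (d (b Ω))⟫_ℂ - ⟪d₁ Ω, z (d Ω)⟫_ℂ) +
          (⟪d₁ (a' Ω), y (d (b' Ω))⟫_ℂ - ⟪d₁ (a Ω), y (d (b Ω))⟫_ℂ)‖ := by
        rw [e1]; congr 1; ring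
    _ ≤ _ := (norm_add_le _ _).trans (add_le_add hz hst)

/-- The estimate: at a letter the form of the word is within `O(ε)` of that letter. -/
theorem estimate (h : D.Ok M N Ω ε K η Λ) (hc : D.Cent M Ω σ) (ht : Tests (D := D) N Ω θ d₁ d)
    (hε : 0 ≤ ε) (hσ : 0 ≤ σ) (hθ : 0 ≤ θ) (i₀ : Fin (D.m + 1)) :
    ‖D.F (D.f i₀) (star d₁ * d) - ⟪d₁ Ω, D.f i₀ (d Ω)⟫_ℂ‖ ≤
      3 * ε + 2 * √(4 * K ^ 2 * ((D.n + 1) * σ) + 2 * η ^ 2 + θ * (Λ + 1) ^ 2) +
        (4 * K ^ 2 * ((D.n + 1) * σ) + 2 * η ^ 2 + θ * (Λ + 1) ^ 2) +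
        ε * √((1 + θ * Λ ^ 2 * (1 + ‖d₁‖ ^ 2 + ‖d‖ ^ 2)) *
          (1 + ((D.m : ℝ) + 1) / ((D.n : ℝ) + 1) * (‖d₁‖ ^ 2 + ‖d‖ ^ 2))) := by
  set k := star d₁ * d
  set V := 4 * K ^ 2 * ((D.n + 1) * σ) + 2 * η ^ 2 + θ * (Λ + 1) ^ 2
  set t₀ := ⟪d₁ Ω, D.f i₀ (d Ω)⟫_ℂ
  set q : ℝ := ((D.m : ℝ) + 1) / ((D.n : ℝ) + 1) with hq
  have hq0 : 0 ≤ q := by positivity
  have hm : ((D.m : ℝ) + 1) ≠ 0 := by positivity
  -- the mean weight of the test vector is one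
  have hone : (avg fun ω : D.Sample => ((q : ℂ) * ∑ l, (ind {l} i₀ ω : ℂ)) * t₀) = t₀ := by
    have h1 : (avgR fun ω : D.Sample => q * ∑ l, ind {l} i₀ ω) = 1 := by
      rw [avgR_smul, avgR_finsum]
      simp only [avgR_ind, Finset.card_singleton, pow_one, Finset.sum_const, Finset.card_univ,
        Fintype.card_fin, nsmul_eq_mul, hq]
      push_cast
      field_simp
    have h2 : (avg fun ω : D.Sample => (((q * ∑ l, ind {l} i₀ ω : ℝ)) : ℂ)) = 1 := by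
      have h3 := congrArg (fun x : ℝ => (x : ℂ)) h1
      simpa [avg, avgR, Complex.ofReal_sum] using h3
    calc _ = (avg fun ω : D.Sample => (((q * ∑ l, ind {l} i₀ ω : ℝ)) : ℂ)) * t₀ := by
          simp [avg, Finset.sum_mul, Finset.mul_sum, mul_assoc]
      _ = t₀ := by rw [h2, one_mul]
  have e : D.F (D.f i₀) k - t₀ = avg fun ω : D.Sample =>
      ((q : ℂ) * ∑ l, (ind {l} i₀ ω : ℂ) *
        (⟪D.L (D.kk l ω k), D.L (D.π (D.w ω))⟫_ℂ - t₀)) +
      ⟪SS i₀ ω k, D.L (D.w ω - D.π (D.w ω))⟫_ℂ := by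
    rw [F_eq]
    conv_lhs => rw [← hone]
    simp only [avg, ← smul_sub, ← Finset.sum_sub_distrib]
    congr 1
    refine Finset.sum_congr rfl fun ω _ => ?_
    rw [map_sub, inner_sub_right, SS, inner_smul_left, inner_smul_left, Complex.conj_ofReal,
      sum_inner, sum_inner, ← hq]
    simp only [inner_smul_left, Complex.conj_ofReal, mul_sub, Finset.sum_sub_distrib,
      ← Finset.sum_mul]
    ring
  rw [e]
  refine (norm_avg_le_avgR _).trans ((avgR_mono fun ω => norm_add_le _ _).trans ?_)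
  rw [avgR_add]
  refine add_le_add ?_ ?_
  · -- the value
    set s : Fin (D.n + 1) → D.Sample → ℝ := fun l ω => ‖d₁ (D.a' l ω Ω - D.a l ω Ω)‖
    set t : Fin (D.n + 1) → D.Sample → ℝ := fun l ω => ‖d (D.b' l ω Ω - D.b l ω Ω)‖
    set G : Fin (D.n + 1) → D.Sample → ℝ := fun l ω =>
      3 * ε + (s l ω + t l ω + 2⁻¹ * (s l ω ^ 2 + t l ω ^ 2))
    have hpt : ∀ ω, ‖(q : ℂ) * ∑ l, (ind {l} i₀ ω : ℂ) *
        (⟪D.L (D.kk l ω k), D.L (D.π (D.w ω))⟫_ℂ - t₀)‖ ≤ q * ∑ l, ind {l} i₀ ω * G l ω := by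
      intro ω
      rw [norm_mul, Complex.norm_real, Real.norm_eq_abs, abs_of_nonneg hq0]
      refine mul_le_mul_of_nonneg_left ((norm_sum_le _ _).trans (Finset.sum_le_sum fun l _ => ?_))
        hq0
      rw [norm_mul, Complex.norm_real, Real.norm_eq_abs, abs_of_nonneg (ind_nonneg _ _ _)]
      by_cases hl : (ω l).2.1 = i₀
      · refine mul_le_mul_of_nonneg_left ?_ (ind_nonneg _ _ _)
        have hv := value_le h ht l ω
        rw [hl] at hv
        exact hv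
      · simp [ind, hl]
    refine (avgR_mono hpt).trans ?_
    rw [avgR_smul, avgR_finsum]
    have hG : ∀ l, avgR (fun ω => ind {l} i₀ ω * G l ω) ≤
        ((D.m : ℝ) + 1)⁻¹ * (3 * ε + 2 * √V + V) := by
      intro l
      rw [avgR_single l i₀ (G l) fun ω i => ?_]
      · refine mul_le_mul_of_nonneg_left ?_ (by positivity)
        simp only [G, avgR_add, avgR_const, avgR_smul]
        have hsq : avgR (fun ω => s l ω ^ 2) ≤ V := left_diff h ht hc hσ hθ l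
        have htq : avgR (fun ω => t l ω ^ 2) ≤ V := right_diff h ht hc hσ hθ l
        have hs1 := (avgR_le_sqrt (s l)).trans (Real.sqrt_le_sqrt hsq)
        have ht1 := (avgR_le_sqrt (t l)).trans (Real.sqrt_le_sqrt htq)
        linarith
      · obtain ⟨-, -, h3, h4⟩ := D.A_setM l ω i
        obtain ⟨p1, -, p3, -⟩ := D.parts_update l ω ((ω l).1, i, (ω l).2.2)
        simp only [G, s, t, h3, h4]
        simp [a, b, setM, p1, p3]
    refine (mul_le_mul_of_nonneg_left (Finset.sum_le_sum fun l _ => hG l) hq0).trans_eq ?_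
    simp only [Finset.sum_const, Finset.card_univ, Fintype.card_fin, nsmul_eq_mul, hq]
    push_cast
    field_simp
  · -- the error
    have hw : ∀ ω, ‖⟪SS i₀ ω k, D.L (D.w ω - D.π (D.w ω))⟫_ℂ‖ ≤ ε * ‖SS i₀ ω k‖ := by
      intro ω
      refine (norm_inner_le_norm _ _).trans ?_
      rw [mul_comm ε]
      refine mul_le_mul_of_nonneg_left ((h.L_norm _).trans ?_) (norm_nonneg _)
      obtain ⟨hwM, hwu⟩ := h.w_mem ω
      have hn : ‖D.w ω - D.π (D.w ω)‖ ≤ ε := by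
        rw [norm_sub_rev]; exact (h.π_ok _ hwM hwu).2.2
      have h1 := (D.w ω - D.π (D.w ω)).le_opNorm Ω
      have h2 := (star (D.w ω - D.π (D.w ω))).le_opNorm Ω
      rw [norm_star, h.omega_norm, mul_one] at h2
      rw [h.omega_norm, mul_one] at h1
      linarith
    refine (avgR_mono hw).trans ?_
    rw [avgR_smul]
    exact mul_le_mul_of_nonneg_left
      ((avgR_le_sqrt _).trans (Real.sqrt_le_sqrt (avgR_SS_le h ht hθ i₀))) hε

/-- The crude bound. -/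
theorem norm_F_le (h : D.Ok M N Ω ε K η Λ) (x k : H →L[ℂ] H) : ‖D.F x k‖ ≤ ‖x‖ * ‖k‖ := by
  have hL : ∀ T : H →L[ℂ] H, ‖D.L T‖ ≤ ‖T‖ := fun T => by
    have h1 := T.le_opNorm Ω
    have h2 := (star T).le_opNorm Ω
    rw [norm_star, h.omega_norm, mul_one] at h2
    rw [h.omega_norm, mul_one] at h1
    have h3 := h.L_norm T
    linarith
  refine Vale.Agent.P082.Avg.norm_avg_le fun ω => Vale.Agent.P082.Avg.norm_avg_le fun l => ?_
  obtain ⟨-, -, -, -, -, -, ha', hb'⟩ := h.a_mem l ω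
  refine (norm_inner_le_norm _ _).trans ?_
  rw [mul_comm ‖x‖]
  refine mul_le_mul ((hL _).trans ?_) ((hL _).trans ?_) (norm_nonneg _) (norm_nonneg _)
  · exact (norm_mul3_le (α := 1) (by rwa [norm_star]) (norm_star k).le ha').trans_eq
      (by ring)
  · exact (norm_mul3_le (norm_unitary_le (h.A_mem l ω).1) le_rfl
      (norm_unitary_le (h.A_mem l ω).2)).trans_eq (by ring)

theorem F_add_left (x y k : H →L[ℂ] H) : D.F (x + y) k = D.F x k + D.F y k := by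
  simp [F, term, avg, mul_add, add_mul, Finset.sum_add_distrib]

theorem F_smul_left (c : ℂ) (x k : H →L[ℂ] H) : D.F (c • x) k = c * D.F x k := by
  simp only [F, term, avg, mul_smul_comm, smul_mul_assoc, map_smul, inner_smul_right, smul_eq_mul,
    Finset.mul_sum]
  exact Finset.sum_congr rfl fun _ _ => Finset.sum_congr rfl fun _ _ => by ring

theorem F_add_right (x k k' : H →L[ℂ] H) : D.F x (k + k') = D.F x k + D.F x k' := by
  simp [F, term, kk, avg, star_add, mul_add, add_mul, Finset.sum_add_distrib]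

theorem F_smul_right (c : ℂ) (x k : H →L[ℂ] H) : D.F x (c • k) = c * D.F x k := by
  simp only [F, term, kk, avg, star_smul, mul_smul_comm, smul_mul_assoc, map_smul, inner_smul_left,
    Complex.star_def, Complex.conj_conj, smul_eq_mul, Finset.mul_sum]
  exact Finset.sum_congr rfl fun _ _ => Finset.sum_congr rfl fun _ _ => by ring

end Data

end Vale.Agent.P096.III.Word
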