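import Vale.Agent.P096.III.Defs
import Vale.Agent.P096.III.Analytic.Lift
import Vale.Agent.P096.III.Conj.Mean
import Vale.Agent.P096.III.Word.Defs

/-!
# P096 III word: the markers of one algebra

`part D g = J g* J` is the partner of `g` in the commutant. The averages of `W g = part(g)* g`
converge in norm on every vector; on the commutant the averaged conjugates flatten to the centre.
-/

namespace Vale.Agent.P096.III.Word

open scoped InnerProductSpace Topology
open Filter
open Vale.Agent.P132 (IsCS ModData)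
open Vale.Agent.P132.Modular (conjOp conjOp_apply conjOp_omega conjOp_mem star_conjOp)
open Vale.Agent.P096.III.Conj (IsTower carrier levelAvg MeanTo exists_meanTo lev)

universe u

variable {H : Type u} [NormedAddCommGroup H] [InnerProductSpace ℂ H] [CompleteSpace H]
  {A : VonNeumannAlgebra H} {Ω : H} (D : ModData A Ω) {G : ℕ → Finset (H →L[ℂ] H)}

theorem conjOp_mul (x y : H →L[ℂ] H) : conjOp D (x * y) = conjOp D x * conjOp D y := by
  ext v
  simp [conjOp_apply, D.J_invol]

theorem conjOp_conjOp (x : H →L[ℂ] H) : conjOp D (conjOp D x) = x := by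
  ext v
  simp [conjOp_apply, D.J_invol]

theorem conjOp_one : conjOp D 1 = 1 := by
  ext v
  simp [conjOp_apply, D.J_invol]

theorem conjOp_unitary {x : H →L[ℂ] H} (hx : x ∈ unitary (H →L[ℂ] H)) :
    conjOp D x ∈ unitary (H →L[ℂ] H) := by
  rw [Unitary.mem_iff, star_conjOp, ← conjOp_mul, ← conjOp_mul, (Unitary.mem_iff.1 hx).1,
    (Unitary.mem_iff.1 hx).2, conjOp_one]
  exact ⟨rfl, rfl⟩

theorem conjOp_mem_of_commutant (hcs : IsCS A Ω) {a : H →L[ℂ] H} (ha : a ∈ A.commutant) :
    conjOp D a ∈ A := by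
  obtain ⟨x, hx, he⟩ := Vale.Agent.P132.Modular.commutant_onto D hcs ha
  have h : conjOp D a = x := by
    ext v
    rw [conjOp_apply, he, D.J_invol, D.J_invol]
  rwa [h]

/-- The partner of a marker. -/
noncomputable def part (g : H →L[ℂ] H) : H →L[ℂ] H := conjOp D (star g)

theorem star_part (g : H →L[ℂ] H) : star (part D g) = part D (star g) := by
  rw [part, part, star_conjOp]

theorem part_mem {g : H →L[ℂ] H} (hg : g ∈ A) : part D g ∈ A.commutant :=
  conjOp_mem D (star_mem hg)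

theorem part_unit {g : H →L[ℂ] H} (hg : g ∈ unitary (H →L[ℂ] H)) :
    part D g ∈ unitary (H →L[ℂ] H) :=
  conjOp_unitary D (Unitary.star_mem hg)

theorem part_mul (g h : H →L[ℂ] H) : part D (g * h) = part D h * part D g := by
  rw [part, part, part, ← conjOp_mul, star_mul]

/-- A centralising unitary and its partner agree at `Ω`. -/
theorem part_omega (hcs : IsCS A Ω) {g : H →L[ℂ] H} (hg : g ∈ A)
    (hu : g ∈ unitary (H →L[ℂ] H)) (hc : ∀ x ∈ A, ⟪Ω, g (x Ω)⟫_ℂ = ⟪Ω, x (g Ω)⟫_ℂ) :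
    part D g Ω = g Ω := by
  have h : ∀ x ∈ A, ⟪D.J (g Ω), D.J (x Ω)⟫_ℂ = ⟪D.J (star x Ω), D.J (star g Ω)⟫_ℂ := by
    intro x hx
    rw [D.J_inner, D.J_inner, ContinuousLinearMap.star_eq_adjoint (A := g),
      ContinuousLinearMap.adjoint_inner_left, hc (star x) (star_mem hx),
      ContinuousLinearMap.star_eq_adjoint, ContinuousLinearMap.adjoint_inner_right]
  choose z hz hz1 hz2 using fun n : ℕ =>
    Vale.Agent.P132.Modular.exists_near D hcs h (Vale.Agent.P132.Modular.wid_pos n)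
  set k : ℕ → H →L[ℂ] H := fun n => conjOp D (z n) with hk
  have hkm : ∀ n, k n ∈ A.commutant := fun n => conjOp_mem D (hz n)
  have hw : Tendsto (fun n => Vale.Agent.P132.Modular.wid n) atTop (𝓝 0) :=
    tendsto_one_div_add_atTop_nhds_zero_nat
  have h1 : Tendsto (fun n => k n Ω) atTop (𝓝 (g Ω)) := by
    refine tendsto_iff_norm_sub_tendsto_zero.2 (squeeze_zero (fun n => norm_nonneg _)
      (fun n => ?_) hw)
    rw [hk, conjOp_omega, ← Vale.Agent.P132.Fixed.norm_J D, Vale.Agent.P132.Fixed.J_sub, D.J_invol]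
    exact hz1 n
  have h2 : Tendsto (fun n => star (k n) Ω) atTop (𝓝 (star g Ω)) := by
    refine tendsto_iff_norm_sub_tendsto_zero.2 (squeeze_zero (fun n => norm_nonneg _)
      (fun n => ?_) hw)
    rw [hk, star_conjOp, conjOp_omega, ← Vale.Agent.P132.Fixed.norm_J D,
      Vale.Agent.P132.Fixed.J_sub, D.J_invol]
    exact hz2 n
  -- the lifts of `k n` tend to the lift of `g`
  have hL : Tendsto (fun n => Analytic.lift D (k n)) atTop (𝓝 (Analytic.lift D g)) := by
    refine tendsto_iff_norm_sub_tendsto_zero.2 (squeeze_zero (fun n => norm_nonneg _)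
      (g := fun n => (‖k n Ω - g Ω‖ + ‖star (k n) Ω - star g Ω‖) / 2) (fun n => ?_) ?_)
    · rw [← map_sub]
      simpa using Analytic.norm_lift_le D (k n - g)
    · simpa using (((h1.sub_const (g Ω)).norm).add ((h2.sub_const (star g Ω)).norm)).div_const 2
  have e1 : ⟪Analytic.lift D g, Analytic.lift D g⟫_ℂ = ⟪g Ω, g Ω⟫_ℂ :=
    tendsto_nhds_unique (hL.inner (𝕜 := ℂ) tendsto_const_nhds)
      ((h1.inner (𝕜 := ℂ) tendsto_const_nhds).congr fun n =>
        (Analytic.inner_lift_alg D hcs (hkm n) hg).symm)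
  have e2 : ⟪Analytic.lift D g, Analytic.lift D g⟫_ℂ = ⟪g Ω, D.J (star g Ω)⟫_ℂ :=
    tendsto_nhds_unique (hL.inner (𝕜 := ℂ) hL)
      ((h1.inner (𝕜 := ℂ) (((Vale.Agent.P132.Fixed.continuous_J D).tendsto _).comp h2)).congr
        fun n => (Analytic.inner_lift_lift D hcs (hkm n) (hkm n)).symm)
  rw [part, conjOp_omega]
  have hn : ‖D.J (star g Ω)‖ = ‖g Ω‖ := by
    rw [Vale.Agent.P132.Fixed.norm_J, norm_unitary_apply (Unitary.star_mem hu),
      norm_unitary_apply hu]
  have h3 := norm_sub_sq (𝕜 := ℂ) (g Ω) (D.J (star g Ω))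
  rw [← e2, e1, inner_self_eq_norm_sq, hn] at h3
  have h4 : ‖g Ω - D.J (star g Ω)‖ = 0 := by nlinarith [norm_nonneg (g Ω - D.J (star g Ω))]
  exact (sub_eq_zero.1 (norm_eq_zero.1 h4)).symm

/-- The twirl by a marker. -/
noncomputable def twirl (g : H →L[ℂ] H) : H →L[ℂ] H := star (part D g) * g

/-- The mean of the twirls of one level. -/
noncomputable def wavg (G : ℕ → Finset (H →L[ℂ] H)) (k : ℕ) : H →L[ℂ] H :=
  ((G k).card : ℂ)⁻¹ • ∑ g ∈ G k, twirl D g

theorem tower (hG : Grps A Ω G) : IsTower G :=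
  ⟨hG.one_mem, hG.mul_mem, hG.star_mem, hG.unit, fun k _ ha => hG.mono k ha⟩

theorem twirl_facts (hG : Grps A Ω G) {k : ℕ} {g : H →L[ℂ] H} (hg : g ∈ G k) :
    twirl D g ∈ unitary (H →L[ℂ] H) ∧ twirl D g Ω = Ω ∧ star (twirl D g) = twirl D (star g) := by
  have hu := hG.unit k g hg
  have hA := hG.mem k g hg
  refine ⟨mul_mem (Unitary.star_mem (part_unit D hu)) hu, ?_, ?_⟩
  · rw [twirl, mul_apply_eq_comp, ← part_omega D hG.cs hA hu (hG.central k g hg),
      star_apply_self (part_unit D hu)]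
  · rw [twirl, twirl, star_mul, star_star, star_part, star_star]
    exact (comm_of (star_mem hA) (part_mem D hA)).symm

theorem twirl_mul (hG : Grps A Ω G) {k : ℕ} {g h : H →L[ℂ] H} (hg : g ∈ G k) (hh : h ∈ G k) :
    twirl D (g * h) = twirl D g * twirl D h := by
  have hA := hG.mem k g hg
  have hc := comm_of hA (star_mem (part_mem D (hG.mem k h hh)))
  rw [twirl, twirl, twirl, part_mul, star_mul, mul_assoc, mul_assoc, ← mul_assoc g, ← hc, mul_assoc]

theorem twirl_wavg (hG : Grps A Ω G) {k : ℕ} {g : H →L[ℂ] H} (hg : g ∈ G k) :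
    twirl D g * wavg D G k = wavg D G k := by
  rw [wavg, mul_smul_comm, Finset.mul_sum]
  congr 1
  rw [Finset.sum_bij' (fun h _ => g * h) (fun h _ => star g * h)
    (fun h hh => hG.mul_mem k g hg h hh) (fun h hh => hG.mul_mem k _ (hG.star_mem k g hg) h hh)
    (fun h _ => by rw [← mul_assoc, Unitary.star_mul_self_of_mem (hG.unit k g hg), one_mul])
    (fun h _ => by rw [← mul_assoc, Unitary.mul_star_self_of_mem (hG.unit k g hg), one_mul])
    (g := fun h => twirl D h) (fun h hh => (twirl_mul D hG hg hh).symm)]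

theorem norm_wavg_le (hG : Grps A Ω G) (k : ℕ) (v : H) : ‖wavg D G k v‖ ≤ ‖v‖ := by
  have h0 : (0 : ℝ) < (G k).card := Nat.cast_pos.2 (Finset.card_pos.2 ⟨1, hG.one_mem k⟩)
  simp only [wavg, smul_apply, sum_apply]
  rw [norm_smul, norm_inv, Complex.norm_natCast, inv_mul_le_iff₀ h0]
  refine (norm_sum_le _ _).trans ((Finset.sum_le_card_nsmul _ _ ‖v‖ fun g hg => ?_).trans_eq
    (nsmul_eq_mul _ _))
  exact (norm_unitary_apply (twirl_facts D hG hg).1 v).le

/-- Vectors fixed by a level do not see its mean. -/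
theorem inner_wavg (hG : Grps A Ω G) (k : ℕ) {x : H} (hx : ∀ g ∈ G k, twirl D g x = x) (v : H) :
    ⟪x, wavg D G k v⟫_ℂ = ⟪x, v⟫_ℂ := by
  have e : ∀ g ∈ G k, ⟪x, twirl D g v⟫_ℂ = ⟪x, v⟫_ℂ := fun g hg => by
    conv_lhs => rw [← hx g hg]
    exact ContinuousLinearMap.inner_map_map_of_mem_unitary (twirl_facts D hG hg).1 _ _
  simp only [wavg, smul_apply, sum_apply, inner_smul_right, inner_sum, Finset.sum_congr rfl e,
    Finset.sum_const, nsmul_eq_mul]
  rw [← mul_assoc, inv_mul_cancel₀ (Nat.cast_ne_zero.2 (Finset.card_ne_zero.2 ⟨1, hG.one_mem k⟩)),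
    one_mul]

/-- The means converge in norm to an invariant vector. -/
theorem exists_limit (hG : Grps A Ω G) (v : H) : ∃ ξ, Tendsto (fun k => wavg D G k v) atTop (𝓝 ξ) ∧
    ∀ k, ∀ g ∈ G k, twirl D g ξ = ξ := by
  set x := fun k => wavg D G k v with hx
  have hfix : ∀ k, ∀ g ∈ G k, twirl D g (x k) = x k := fun k g hg => by
    have := congrArg (fun T : H →L[ℂ] H => T v) (twirl_wavg D hG hg)
    simpa [hx] using this
  have key : ∀ k l, k ≤ l → ‖x k - x l‖ ^ 2 = ‖x k‖ ^ 2 - ‖x l‖ ^ 2 := by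
    intro k l hkl
    have hin : ∀ g ∈ G k, twirl D g (x l) = x l := fun g hg =>
      hfix l g ((tower hG).le hkl hg)
    have h1 : ⟪x l, x k⟫_ℂ = ⟪x l, x l⟫_ℂ := by
      rw [show ⟪x l, x k⟫_ℂ = ⟪x l, v⟫_ℂ from inner_wavg D hG k hin v,
        show ⟪x l, x l⟫_ℂ = ⟪x l, v⟫_ℂ from inner_wavg D hG l (hfix l) v]
    have h2 := norm_sub_sq (𝕜 := ℂ) (x k) (x l)
    rw [inner_re_symm (𝕜 := ℂ), h1, inner_self_eq_norm_sq] at h2
    linarith
  have hmono : Antitone fun k => ‖x k‖ ^ 2 := fun k l hkl => by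
    have := key k l hkl
    nlinarith [sq_nonneg ‖x k - x l‖]
  obtain ⟨c, hc⟩ : ∃ c, Tendsto (fun k => ‖x k‖ ^ 2) atTop (𝓝 c) :=
    ⟨_, tendsto_atTop_ciInf hmono ⟨0, by rintro _ ⟨k, rfl⟩; positivity⟩⟩
  have hcau : CauchySeq x := by
    rw [Metric.cauchySeq_iff']
    intro e he
    obtain ⟨N, hN⟩ := Metric.cauchySeq_iff'.1 hc.cauchySeq (e ^ 2) (by positivity)
    refine ⟨N, fun l hl => ?_⟩
    have h1 := hN l hl
    rw [Real.dist_eq, abs_lt] at h1
    rw [dist_comm, dist_eq_norm]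
    have h2 := key N l hl
    nlinarith [norm_nonneg (x N - x l), hmono hl]
  obtain ⟨ξ, hξ⟩ := cauchySeq_tendsto_of_complete hcau
  refine ⟨ξ, hξ, fun k g hg => ?_⟩
  refine tendsto_nhds_unique (((twirl D g).continuous.tendsto ξ).comp hξ) (hξ.congr' ?_)
  filter_upwards [eventually_ge_atTop k] with l hl
  rw [Function.comp_apply, hfix l g ((tower hG).le hl hg)]

/-- The conjugates of an element of the commutant by the partners. -/
noncomputable def conjAvg (G : ℕ → Finset (H →L[ℂ] H)) (k : ℕ) (a : H →L[ℂ] H) : H →L[ℂ] H :=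
  levelAvg G k fun g => star (part D g) * a * part D g

theorem conjAvg_omega (hG : Grps A Ω G) (k : ℕ) {a : H →L[ℂ] H} (ha : a ∈ A.commutant) :
    conjAvg D G k a Ω = wavg D G k (a Ω) := by
  simp only [conjAvg, levelAvg, wavg, smul_apply, sum_apply]
  congr 1
  refine Finset.sum_congr rfl fun g hg => ?_
  have hA := hG.mem k g hg
  simp only [twirl, mul_apply_eq_comp, part_omega D hG.cs hA (hG.unit k g hg) (hG.central k g hg),
    comm_apply hA ha]

/-- An element of the commutant flattens to the centre. -/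
theorem exists_flat (hG : Grps A Ω G) {a : H →L[ℂ] H} (ha : a ∈ A.commutant) :
    ∃ h, InCentre A h ∧ Tendsto (fun k => conjAvg D G k a Ω) atTop (𝓝 (h Ω)) ∧
      ‖h‖ ≤ ‖a‖ ∧ MeanTo G (fun g => star (part D g) * a * part D g) h := by
  set f := fun g => star (part D g) * a * part D g with hf
  have hK := tower hG
  have hfn : ∀ g ∈ carrier G, ‖f g‖ ≤ ‖a‖ := by
    intro g hg
    have hu := part_unit D (hK.carrier_unit hg)
    rw [hf, CStarRing.norm_mul_mem_unitary _ hu,
      CStarRing.norm_mem_unitary_mul _ (Unitary.star_mem hu)]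
  obtain ⟨h, hh⟩ := exists_meanTo hK hfn
  have hA' : h ∈ A.commutant := MeanTo.mem A.commutant (fun g hg => by
    obtain ⟨k, hg⟩ := hg
    exact mul_mem (mul_mem (star_mem (part_mem D (hG.mem k g hg))) ha)
      (part_mem D (hG.mem k g hg))) hh
  have hcomm : ∀ k, ∀ g ∈ G k, Commute g (conjOp D h) := by
    intro k g hg
    have hp := part_unit D (hG.unit k g hg)
    have h1 : h = star (part D g) * h * part D g := (hh.translate hK ⟨k, hg⟩).unique
      (((hh.mul_left (star (part D g))).mul_right (part D g)).congr fun x _ => by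
        simp only [hf, part_mul, star_mul, mul_assoc])
    have h2 : part D g * h = h * part D g := by
      conv_lhs => rw [h1]
      rw [← mul_assoc, ← mul_assoc, Unitary.mul_star_self_of_mem hp, one_mul]
    have h3 : conjOp D (part D g) = star g := conjOp_conjOp D _
    have h4 := congrArg (conjOp D) h2
    rw [conjOp_mul, conjOp_mul, h3] at h4
    have hu := hG.unit k g hg
    show g * conjOp D h = conjOp D h * g
    calc g * conjOp D h = g * (conjOp D h * star g) * g := by
          rw [mul_assoc g, mul_assoc, Unitary.star_mul_self_of_mem hu, mul_one]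
      _ = conjOp D h * g := by
          rw [← h4, ← mul_assoc g, Unitary.mul_star_self_of_mem hu, one_mul]
  have hx := conjOp_mem_of_commutant D hG.cs hA'
  have hx' := hG.irred _ hx hcomm
  have hA : h ∈ A := by
    have e : h = star (conjOp D h) := by
      ext v
      rw [← conjOp_conjOp D h]
      rw [conjOp_apply, Analytic.central_J D hG.cs hx hx', D.J_invol, conjOp_conjOp D h]
    rw [e]
    exact star_mem hx
  refine ⟨h, ⟨hA, hA'⟩, ?_, hh.norm_le hK (norm_nonneg a) hfn, hh⟩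
  obtain ⟨ξ, hξ, -⟩ := exists_limit D hG (a Ω)
  have he : h Ω = ξ := ext_inner_left ℂ fun u => by
    refine tendsto_nhds_unique (hh u Ω)
      (((tendsto_const_nhds (x := u)).inner (𝕜 := ℂ) hξ).mono_left (Ultrafilter.of_le atTop)
        |>.congr fun k => ?_)
    rw [← conjAvg_omega D hG k ha]
    rfl
  rw [he]
  exact hξ.congr fun k => (conjAvg_omega D hG k ha).symm

/-- An invariant vector is in the closure of the centre at `Ω`. -/
theorem exists_central_near (hG : Grps A Ω G) {ξ : H} (hξ : ∀ k, ∀ g ∈ G k, twirl D g ξ = ξ)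
    {e : ℝ} (he : 0 < e) : ∃ z, InCentre A z ∧ ‖z Ω - ξ‖ ≤ e := by
  obtain ⟨x, hx, hxe⟩ := hG.cs.cyclic (D.J ξ) e he
  have ha := conjOp_mem D hx
  have hd : ‖conjOp D x Ω - ξ‖ ≤ e := by
    rw [conjOp_omega, ← Vale.Agent.P132.Fixed.norm_J D, Vale.Agent.P132.Fixed.J_sub, D.J_invol]
    exact hxe
  obtain ⟨h, hc, ht, -, -⟩ := exists_flat D hG ha
  refine ⟨h, hc, le_of_tendsto ((ht.sub_const ξ).norm) (Eventually.of_forall fun k => ?_)⟩
  have h1 : wavg D G k ξ = ξ := by
    simp only [wavg, smul_apply, sum_apply, Finset.sum_congr rfl (hξ k), Finset.sum_const]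
    rw [← Nat.cast_smul_eq_nsmul ℂ, inv_smul_smul₀
      (Nat.cast_ne_zero.2 (Finset.card_ne_zero.2 ⟨1, hG.one_mem k⟩))]
  rw [conjAvg_omega D hG k ha]
  nth_rewrite 1 [← h1]
  rw [← map_sub]
  exact (norm_wavg_le D hG k _).trans hd

end Vale.Agent.P096.III.Word
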