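import Vale.Agent.P096.III.Word.Weight
import Vale.Agent.P096.III.Word.Clip
import Vale.Agent.P096.III.Iface
import Vale.Agent.P132.Modular.Main

/-!
# P096 III: the stage (random words at weighted vectors)

The markers run through one level of the pinned groups, the letters through `S`. One form serves
all test elements: at `ω = c Ω` with `c` central it is the same form up to the factor `c²`.
-/

namespace Vale.Agent.P096.III.Word

open scoped InnerProductSpace Topology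
open Filter
open Vale.Agent.P082 (Alg avg avgR)
open Vale.Agent.P132 (IsCS ModData)
open Vale.Agent.P132.Modular (conjOp conjOp_apply conjOp_omega conjOp_mem star_conjOp)
open Vale.Agent.P096.III.Conj (levelAvg)

universe u

variable {H : Type u} [NormedAddCommGroup H] [InnerProductSpace ℂ H] [CompleteSpace H]
  {M N : VonNeumannAlgebra H} {Ω : H}

omit [CompleteSpace H] in
theorem avg_level {E : Type*} [AddCommMonoid E] [Module ℂ E] {s : Finset (H →L[ℂ] H)} {r : ℕ}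
    (e : Fin r ≃ {g // g ∈ s}) (φ : (H →L[ℂ] H) → E) :
    avg (fun i => φ (e i)) = (s.card : ℂ)⁻¹ • ∑ g ∈ s, φ g := by
  rw [avg, Fintype.card_congr e, Fintype.card_coe, Equiv.sum_comp e (fun g => φ g),
    Finset.sum_coe_sort]

theorem sum_star {E : Type*} [AddCommMonoid E] {G : ℕ → Finset (H →L[ℂ] H)} (hG : Grps N Ω G)
    (k : ℕ) (φ : (H →L[ℂ] H) → E) : ∑ g ∈ G k, φ (star g) = ∑ g ∈ G k, φ g :=
  Finset.sum_bij' (fun g _ => star g) (fun g _ => star g) (hG.star_mem k) (hG.star_mem k)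
    (fun g _ => star_star g) (fun g _ => star_star g) fun _ _ => rfl

theorem avg_prod {α β : Type*} [Fintype α] [Fintype β] {E : Type*} [AddCommMonoid E] [Module ℂ E]
    (φ : α → β → E) : avg (fun q : α × β => φ q.1 q.2) = avg fun b => avg fun a => φ a b := by
  simp only [avg, Fintype.card_prod, Nat.cast_mul, mul_inv, Fintype.sum_prod_type,
    ← Finset.smul_sum]
  rw [Finset.sum_comm, smul_smul, mul_comm]

omit [CompleteSpace H] in
theorem inner_avg {α : Type*} [Fintype α] (x : H) (φ : α → H) :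
    ⟪x, avg φ⟫_ℂ = avg fun a => ⟪x, φ a⟫_ℂ := by
  simp [avg, inner_smul_right]

/-- The data of one level. -/
noncomputable def dat (DN : ModData N Ω) (DM : ModData M Ω) {r m : ℕ}
    (u : Fin (r + 1) → H →L[ℂ] H) (f : Fin (m + 1) → H →L[ℂ] H) (n : ℕ)
    (π : (H →L[ℂ] H) → H →L[ℂ] H) (Q : (H →L[ℂ] H) → (H →L[ℂ] H) → H →L[ℂ] H)
    (L : (H →L[ℂ] H) →ₗ[ℂ] H) : Data H :=
  ⟨r, u, fun i => part DN (u i), fun i => part DM (u i), m, f, fun i => part DM (f i), n, π, Q, L,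
    conjOp DN⟩

variable {G : ℕ → Finset (H →L[ℂ] H)} (DN : ModData N Ω) (DM : ModData M Ω) {r m : ℕ}
  {u : Fin (r + 1) → H →L[ℂ] H} {f : Fin (m + 1) → H →L[ℂ] H} {n k : ℕ}
  {π : (H →L[ℂ] H) → H →L[ℂ] H} {Q : (H →L[ℂ] H) → (H →L[ℂ] H) → H →L[ℂ] H} {ε Λ : ℝ}

/-- The standing assumptions at a weighted vector. -/
theorem dat_ok (hN : Grps N Ω G) (hM : Grps M Ω G) (hu : ∀ i, u i ∈ G k)
    (hf : ∀ i, f i ∈ M ∧ f i ∈ unitary (H →L[ℂ] H))
    (hπ : ∀ x ∈ M, x ∈ unitary (H →L[ℂ] H) → π x ∈ N ∧ ‖π x‖ ≤ 1 ∧ ‖π x - x‖ ≤ ε)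
    (hQ : ∀ x ∈ M, x ∈ unitary (H →L[ℂ] H) → ∀ x' ∈ M.commutant, x' ∈ unitary (H →L[ℂ] H) →
      Q x x' ∈ N.commutant ∧ ‖Q x x'‖ ≤ 1 ∧ (∃ p ∈ N, ‖p‖ ≤ Λ ∧ Q x x' Ω = p Ω) ∧
        ∀ c, InCentre N c → ‖c Ω‖ = 1 →
          ‖Q x x' (c Ω) - π x (c Ω)‖ ≤ 3 * ‖x (c Ω) - x' (c Ω)‖ + 7 * ε)
    {c : H →L[ℂ] H} (hc : InCentre N c) (hcM : InCentre M c) (hcs : IsSelfAdjoint c)
    (hn : ‖c Ω‖ = 1) :
    (dat DN DM u f n π Q (liftAt DN (c Ω))).Ok M N (c Ω) ε 3 (7 * ε) Λ where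
  omega_norm := hn
  u_M i := hM.mem k _ (hu i)
  u_N i := hN.mem k _ (hu i)
  u_unit i := hN.unit k _ (hu i)
  GM_mem i := part_mem DM (hM.mem k _ (hu i))
  GM_unit i := part_unit DM (hM.unit k _ (hu i))
  GM_omega i := by
    show u i (c Ω) = part DM (u i) (c Ω)
    rw [← comm_apply (hM.mem k _ (hu i)) hcM.2, comm_apply hcM.1 (part_mem DM (hM.mem k _ (hu i))),
      part_omega DM hM.cs (hM.mem k _ (hu i)) (hM.unit k _ (hu i)) (hM.central k _ (hu i))]
  G_N i := part_mem DN (hN.mem k _ (hu i))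
  G_unit i := part_unit DN (hN.unit k _ (hu i))
  u_omega i := by
    show u i (c Ω) = part DN (u i) (c Ω)
    rw [← comm_apply (hN.mem k _ (hu i)) hc.2, comm_apply hc.1 (part_mem DN (hN.mem k _ (hu i))),
      part_omega DN hN.cs (hN.mem k _ (hu i)) (hN.unit k _ (hu i)) (hN.central k _ (hu i))]
  f_mem i := (hf i).1
  f_unit i := (hf i).2
  f'_mem i := part_mem DM (hf i).1
  f'_unit i := part_unit DM (hf i).2
  π_ok := hπ
  Q_ok x hx hxu x' hx' hxu' := by
    obtain ⟨h1, h2, ⟨p, hp, hpn, hpe⟩, h4⟩ := hQ x hx hxu x' hx' hxu'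
    refine ⟨h1, h2, ⟨p, hp, hpn, ?_⟩, ⟨conjOp DN p, conjOp_mem DN hp, ?_, ?_⟩, h4 c hc hn⟩
    · show Q x x' (c Ω) = p (c Ω)
      rw [comm_apply hc.1 h1, hpe, comm_apply hp hc.2]
    · refine ContinuousLinearMap.opNorm_le_bound _ ((norm_nonneg p).trans hpn) fun v => ?_
      rw [conjOp_apply, Vale.Agent.P132.Fixed.norm_J]
      exact (p.le_of_opNorm_le hpn _).trans_eq (by rw [Vale.Agent.P132.Fixed.norm_J])
    · show conjOp DN (Q x x') (c Ω) = conjOp DN p (c Ω)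
      rw [conjOp_apply, conjOp_apply, J_central_omega DN hN.cs hc hcs, comm_apply hc.1 h1, hpe,
        comm_apply hp hc.2]
  L_norm T := norm_liftAt_le DN _ T
  L_cross a ha y hy := by
    have h1 := inCentre_comm_sa hc (Or.inr ha)
    have h2 := inCentre_comm_sa hc (Or.inl hy)
    show ⟪liftAt DN (c Ω) a, liftAt DN (c Ω) y⟫_ℂ = _
    rw [liftAt_central DN hN.cs hc hcs h1, liftAt_central DN hN.cs hc hcs h2,
      ← Analytic.lift_central DN hN.cs hc.1 hc.2 h1, ← Analytic.lift_central DN hN.cs hc.1 hc.2 h2,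
      Analytic.inner_lift_alg DN hN.cs (mul_mem hc.2 ha) (mul_mem hc.1 hy), h1, h2]
    rfl
  L_self a ha b hb := by
    have h1 := inCentre_comm_sa hc (Or.inr ha)
    have h2 := inCentre_comm_sa hc (Or.inr hb)
    show ⟪liftAt DN (c Ω) a, liftAt DN (c Ω) b⟫_ℂ = ⟪a (c Ω), conjOp DN (star b) (c Ω)⟫_ℂ
    rw [liftAt_central DN hN.cs hc hcs h1, liftAt_central DN hN.cs hc hcs h2,
      ← Analytic.lift_central DN hN.cs hc.1 hc.2 h1, ← Analytic.lift_central DN hN.cs hc.1 hc.2 h2,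
      Analytic.inner_lift_lift DN hN.cs (mul_mem hc.2 ha) (mul_mem hc.2 hb), h1,
      conjOp_apply, J_central_omega DN hN.cs hc hcs, star_mul, hcs.star_eq]
    rfl
  jm_mem a ha := conjOp_mem_of_commutant DN hN.cs ha
  jm_norm a _ := ContinuousLinearMap.opNorm_le_bound _ (norm_nonneg a) fun v => by
    show ‖conjOp DN a v‖ ≤ _
    rw [conjOp_apply, Vale.Agent.P132.Fixed.norm_J]
    exact (a.le_opNorm _).trans_eq (by rw [Vale.Agent.P132.Fixed.norm_J])
  jm_mul a _ b _ := conjOp_mul DN a b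
  jm_star a _ := (star_conjOp DN a).symm

/-- The form at a weighted vector is the form at `Ω`, scaled. -/
theorem F_scale {c z w : H →L[ℂ] H} (hN : Grps N Ω G) (hz : InCentre N z) (hzM : InCentre M z)
    (hzs : IsSelfAdjoint z) (hw : InCentre N w) (hws : IsSelfAdjoint w) (hwz : w * z = 1) {s : ℝ}
    (hcdef : c = (s : ℂ) • z) {K η : ℝ}
    (h : (dat DN DM u f n π Q (liftAt DN (c Ω))).Ok M N (c Ω) ε K η Λ)
    {x : H →L[ℂ] H} (hx : x ∈ M) {a : H →L[ℂ] H} (ha : a ∈ N.commutant) :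
    (dat DN DM u f n π Q (liftAt DN (c Ω))).F x (w * w * a) =
      ((s : ℂ) ^ 2) * (dat DN DM u f n π Q (Analytic.lift DN)).F x a := by
  have hc : InCentre N c := hcdef ▸ central_smul hz _
  have hcs : IsSelfAdjoint c := by
    rw [hcdef]
    show star _ = _
    rw [star_smul, hzs.star_eq, Complex.star_def, Complex.conj_ofReal]
  set D := dat DN DM u f n π Q (liftAt DN (c Ω))
  set D₁ := dat DN DM u f n π Q (Analytic.lift DN)
  have key : ∀ l ω, D.term l ω x (w * w * a) = (s : ℂ) ^ 2 * D₁.term l ω x a := by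
    intro l ω
    obtain ⟨-, -, ha', hb', -⟩ := h.a_mem l ω
    have hww : InCentre N (w * w) := ⟨mul_mem hw.1 hw.1, mul_mem hw.2 hw.2⟩
    have hsw : star (w * w) = w * w := by rw [star_mul, hws.star_eq]
    have hk : D.kk l ω (w * w * a) = w * w * D₁.kk l ω a := by
      show star (D.b' l ω) * star (w * w * a) * D.a' l ω =
        w * w * (star (D.b' l ω) * star a * D.a' l ω)
      rw [star_mul, hsw, ← inCentre_comm_sa hww (Or.inr (star_mem ha)), ← mul_assoc,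
        ← inCentre_comm_sa hww (Or.inr (star_mem hb'))]
      simp only [mul_assoc]
    have hK : D₁.kk l ω a ∈ N.commutant :=
      mul_mem (mul_mem (star_mem hb') (star_mem ha)) ha'
    set T := D₁.A l ω * x * D₁.B l ω
    have hT : T ∈ M := mul_mem (mul_mem (mul_mem (h.pre_mem l ω).1 (h.u_M _)) hx)
      (mul_mem (h.u_M _) (h.post_mem l ω).1)
    have hcT : c * T = T * c := inCentre_comm_sa (N := M) (hcdef ▸ central_smul hzM _) (Or.inl hT)
    have hcK := inCentre_comm_sa hww (Or.inr hK)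
    have hcKK := inCentre_comm_sa hc (Or.inr (mul_mem hww.2 hK))
    show ⟪liftAt DN (c Ω) (D.kk l ω (w * w * a)), liftAt DN (c Ω) T⟫_ℂ =
      (s : ℂ) ^ 2 * ⟪Analytic.lift DN (D₁.kk l ω a), Analytic.lift DN T⟫_ℂ
    rw [hk, liftAt_central DN hN.cs hc hcs hcKK, liftAt_central DN hN.cs hc hcs hcT,
      Analytic.lift_central DN hN.cs hww.1 hww.2 hcK]
    have e1 : ∀ v, w (z v) = v := fun v => congrArg (fun R : H →L[ℂ] H => R v) hwz
    have e2 : ∀ v, c (w (w v)) = (s : ℂ) • w v := fun v => by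
      rw [hcdef, smul_apply, ← comm_apply hz.1 hw.2, ← comm_apply hz.1 hw.2, e1]
    rw [mul_apply_eq_comp, e2, inner_smul_left, Complex.conj_ofReal,
      inner_selfadjoint hws, hcdef, smul_apply, map_smul, e1, inner_smul_right]
    ring
  show avg (fun ω => avg fun l => D.term l ω x (w * w * a)) =
    (s : ℂ) ^ 2 * avg fun ω : D.Sample => avg fun l : Fin (D.n + 1) => D₁.term l ω x a
  simp only [key, avg, smul_eq_mul, Finset.mul_sum]
  exact Finset.sum_congr rfl fun _ _ => Finset.sum_congr rfl fun _ _ => by ring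

theorem conjAvg_central (hN : Grps N Ω G) (k : ℕ) {w : H →L[ℂ] H} (hw : InCentre N w)
    (a : H →L[ℂ] H) : conjAvg DN G k (w * a) = w * conjAvg DN G k a := by
  simp only [conjAvg, levelAvg, mul_smul_comm, Finset.mul_sum]
  congr 1
  refine Finset.sum_congr rfl fun g hg => ?_
  rw [← mul_assoc, ← inCentre_comm_sa hw (Or.inr (star_mem (part_mem DN (hN.mem k g hg))))]
  simp only [mul_assoc]

/-- The markers flatten `d w` at `c Ω`. -/
theorem flat_of (hN : Grps N Ω G) {ι : Type} [Fintype ι] {v : ι → H →L[ℂ] H}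
    (hv : ∀ X, avg (fun i => star (v i) * X * v i) = conjAvg DN G k X)
    {c z w h' d : H →L[ℂ] H} (hz : InCentre N z) (hw : InCentre N w) (hws : IsSelfAdjoint w)
    (hwz : w * z = 1) {s : ℝ} (hs : 0 ≤ s) (hcdef : c = (s : ℂ) • z) (hh : InCentre N h')
    (hhn : ‖h'‖ ≤ 1) (hd : d ∈ N.commutant) {e : ℝ}
    (he : ‖conjAvg DN G k (star d * d) Ω - z (z (h' Ω))‖ ≤ e) {b : ℝ} (hb : s * ‖w‖ * e ≤ b) :
    Data.Flat N (c Ω) b v (d * w) := by
  refine ⟨h', hh.1, hh.2, hhn, ?_⟩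
  have e1 : ∀ y, w (z y) = y := fun y => congrArg (fun R : H →L[ℂ] H => R y) hwz
  have e2 : star (d * w) * (d * w) = w * (w * (star d * d)) := by
    rw [star_mul, hws.star_eq, ← inCentre_comm_sa hw (Or.inr hd), mul_assoc,
      ← mul_assoc (star d), ← inCentre_comm_sa hw (Or.inr (star_mem hd)), mul_assoc]
  set X := conjAvg DN G k (star d * d) with hX
  have hXm : X ∈ N.commutant := by
    simp only [hX, conjAvg, levelAvg]
    exact N.commutant.toStarSubalgebra.smul_mem (sum_mem fun g hg =>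
      mul_mem (mul_mem (star_mem (part_mem DN (hN.mem k g hg))) (mul_mem (star_mem hd) hd))
        (part_mem DN (hN.mem k g hg))) _
  have e3 : avg (fun i => star (v i) * (star (d * w) * (d * w)) * v i) (c Ω) =
      (s : ℂ) • w (X Ω) := by
    rw [hv, e2, conjAvg_central DN hN k hw, conjAvg_central DN hN k hw, mul_apply_eq_comp,
      mul_apply_eq_comp, hcdef, smul_apply, map_smul, map_smul, map_smul, comm_apply hz.1 hXm, e1]
  have e4 : h' (c Ω) = (s : ℂ) • w (z (z (h' Ω))) := by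
    rw [e1, hcdef, smul_apply, map_smul, comm_apply hz.1 hh.2]
  rw [e3, e4, ← smul_sub, ← map_sub, norm_smul, Complex.norm_real, Real.norm_eq_abs,
    abs_of_nonneg hs]
  refine le_trans ?_ hb
  rw [mul_assoc]
  exact mul_le_mul_of_nonneg_left ((w.le_opNorm _).trans
    (mul_le_mul_of_nonneg_left he (norm_nonneg _))) hs

/-- The markers make the letters central. -/
theorem dat_cent (hM : Grps M Ω G) (e : Fin (r + 1) ≃ {g // g ∈ G k}) (hue : ∀ i, u i = e i)
    (hf : ∀ i, f i ∈ M ∧ f i ∈ unitary (H →L[ℂ] H)) {c : H →L[ℂ] H} (hc : InCentre M c)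
    (hn : ‖c Ω‖ = 1) {θ δ : ℝ}
    (hfδ : ∀ i, ‖c (f i Ω - DM.J (star (f i) Ω))‖ ≤ δ)
    (hclip : ∀ g ∈ M, g ∈ unitary (H →L[ℂ] H) → (∃ i, g = f i ∨ g = star (f i)) →
      ∃ m₀, InCentre M m₀ ∧ IsSelfAdjoint m₀ ∧ ‖m₀‖ ≤ 1 ∧
        ‖wavg DM G k (star (part DM g) (g (c Ω))) - m₀ (c Ω)‖ ≤ θ)
    {π : (H →L[ℂ] H) → H →L[ℂ] H} {Q : (H →L[ℂ] H) → (H →L[ℂ] H) → H →L[ℂ] H}
    {L : (H →L[ℂ] H) →ₗ[ℂ] H} :
    (dat DN DM u f n π Q L).Cent M (c Ω) (δ ^ 2 / 2 + 2 * θ) := by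
  have hv : ∀ i, 1 - δ ^ 2 / 2 ≤ (⟪part DM (f i) (c Ω), f i (c Ω)⟫_ℂ).re ∧
      1 - δ ^ 2 / 2 ≤ (⟪f i (c Ω), part DM (f i) (c Ω)⟫_ℂ).re := by
    intro i
    have hp := part_mem DM (hf i).1
    have e0 : c (f i Ω - DM.J (star (f i) Ω)) = f i (c Ω) - part DM (f i) (c Ω) := by
      rw [map_sub, comm_apply hc.1 hp, ← comm_apply (hf i).1 hc.2, part, conjOp_omega]
    have h1 := norm_sub_sq (𝕜 := ℂ) (f i (c Ω)) (part DM (f i) (c Ω))
    rw [norm_unitary_apply (hf i).2, norm_unitary_apply (part_unit DM (hf i).2), hn, ← e0] at h1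
    have h2 := pow_le_pow_left₀ (norm_nonneg _) (hfδ i) 2
    simp only [RCLike.re_to_complex] at h1
    have h3 : (⟪part DM (f i) (c Ω), f i (c Ω)⟫_ℂ).re =
        (⟪f i (c Ω), part DM (f i) (c Ω)⟫_ℂ).re := inner_re_symm (𝕜 := ℂ) _ _
    constructor <;> linarith
  have gen : ∀ g : Fin (m + 1) → H →L[ℂ] H, (∀ i, g i ∈ M ∧ g i ∈ unitary (H →L[ℂ] H)) →
      (∀ i, ∃ j, g i = f j ∨ g i = star (f j)) →
      (∀ i, 1 - δ ^ 2 / 2 ≤ (⟪part DM (g i) (c Ω), g i (c Ω)⟫_ℂ).re) →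
      ∀ P ∈ M, P ∈ unitary (H →L[ℂ] H) → ∀ P' ∈ M.commutant, P' ∈ unitary (H →L[ℂ] H) →
        (⟪P (c Ω), P' (c Ω)⟫_ℂ).re - (δ ^ 2 / 2 + 2 * θ) ≤
            (⟪P (avg fun i => wavg DM G k (star (part DM (g i)) (g i (c Ω)))), P' (c Ω)⟫_ℂ).re ∧
          (⟪P (c Ω), P' (c Ω)⟫_ℂ).re - (δ ^ 2 / 2 + 2 * θ) ≤
            (⟪P (c Ω), P' (avg fun i => wavg DM G k (star (part DM (g i)) (g i (c Ω))))⟫_ℂ).re := by
    intro g hg hgf hgv P hP hPu P' hP' hPu'
    choose m₀ h1 h2 h3 h4 using fun i => hclip (g i) (hg i).1 (hg i).2 (hgf i)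
    refine cent_bound hn (fun i => ⟨h1 i, h2 i, h3 i⟩) ?_ ?_ rfl
      (v := fun i => star (part DM (g i)) (g i (c Ω))) (fun i => ?_) hP hPu hP' hPu'
    · have e0 : avg (fun i => wavg DM G k (star (part DM (g i)) (g i (c Ω)))) - avg m₀ (c Ω) =
          avg fun i => wavg DM G k (star (part DM (g i)) (g i (c Ω))) - m₀ i (c Ω) := by
        simp only [avg, smul_apply, sum_apply, Finset.sum_sub_distrib, smul_sub]
      rw [e0]
      exact Vale.Agent.P082.Avg.norm_avg_le h4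
    · rw [inner_avg, inner_avg]
      exact Vale.Agent.P082.Avg.avg_congr fun i =>
        inner_wavg DM hM k (fun g' hg' => central_omega_fixed DM hM hg' hc) _
    · rw [ContinuousLinearMap.star_eq_adjoint, ContinuousLinearMap.adjoint_inner_right]
      exact hgv i
  have hlev : ∀ y : H, avg (fun j => twirl DM (u j) y) = wavg DM G k y := fun y => by
    simp only [hue]
    rw [avg_level e (fun g => twirl DM g y), wavg, smul_apply, sum_apply]
  constructor
  · intro P hP hPu P' hP' hPu'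
    refine ((gen f hf (fun i => ⟨i, Or.inl rfl⟩) (fun i => (hv i).1) P hP hPu P' hP' hPu').1).trans_eq
      ?_
    have e0 : (avg fun q : Fin (r + 1) × Fin (m + 1) =>
        star (part DM (u q.1)) (u q.1 (star (part DM (f q.2)) (f q.2 (c Ω))))) =
        avg fun i => wavg DM G k (star (part DM (f i)) (f i (c Ω))) := by
      rw [avg_prod fun j i => star (part DM (u j)) (u j (star (part DM (f i)) (f i (c Ω))))]
      exact Vale.Agent.P082.Avg.avg_congr fun i => hlev _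
    exact congrArg (fun X => (⟪P X, P' (c Ω)⟫_ℂ).re) e0.symm
  · intro P hP hPu P' hP' hPu'
    refine ((gen (fun i => star (f i))
      (fun i => ⟨star_mem (hf i).1, Unitary.star_mem (hf i).2⟩) (fun i => ⟨i, Or.inr rfl⟩)
      (fun i => ?_) P hP hPu P' hP' hPu').2).trans_eq ?_
    · rw [← star_part, ContinuousLinearMap.star_eq_adjoint,
        ContinuousLinearMap.adjoint_inner_left, comm_apply (star_mem (hf i).1) (part_mem DM (hf i).1),
        ContinuousLinearMap.star_eq_adjoint, ContinuousLinearMap.adjoint_inner_right]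
      exact (hv i).2
    have e0 : (avg fun q : Fin (r + 1) × Fin (m + 1) =>
        star (u q.1) (part DM (u q.1) (star (f q.2) (part DM (f q.2) (c Ω))))) =
        avg fun i => wavg DM G k (star (part DM (star (f i))) (star (f i) (c Ω))) := by
      rw [avg_prod fun j i => star (u j) (part DM (u j) (star (f i) (part DM (f i) (c Ω))))]
      refine Vale.Agent.P082.Avg.avg_congr fun i => ?_
      rw [star_part, star_star, ← comm_apply (star_mem (hf i).1) (part_mem DM (hf i).1)]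
      generalize part DM (f i) (star (f i) (c Ω)) = y
      have hj : ∀ j, star (u j) (part DM (u j) y) = twirl DM (star (u j)) y := fun j => by
        rw [twirl, mul_apply_eq_comp, star_part, star_star,
          comm_apply (star_mem (hM.mem k _ (hue j ▸ (e j).2))) (part_mem DM
            (hM.mem k _ (hue j ▸ (e j).2)))]
      rw [Vale.Agent.P082.Avg.avg_congr hj]
      simp only [hue]
      rw [avg_level e (fun g => twirl DM (star g) y), sum_star hM k (fun g => twirl DM g y), wavg,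
        smul_apply, sum_apply]
    exact congrArg (fun X => (⟪P (c Ω), P' X⟫_ℂ).re) e0.symm

/-- The arithmetic of the estimate. -/
theorem bound_le {ε a τ t p W : ℝ} (hε : 0 ≤ ε) (hε1 : ε ≤ 1) (ha : 0 ≤ a) (ha1 : a ≤ 1)
    (hτ : 0 ≤ τ) (hτ1 : τ ≤ 1) (hτt : 3 * √τ ≤ t) (hp : 0 ≤ p)
    (hW : W ≤ 18 * a ^ 2 + 98 * ε ^ 2 + τ) {U Q : ℝ} (hU : U ≤ 2)
    (hQ : Q ≤ 1 + 2 * p ^ 2) (hQ0 : 0 ≤ Q) :
    3 * ε + 2 * √W + W + ε * √(U * Q) ≤ 128 * (ε + a) + 2 * ε * p + t := by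
  have h1 : √W ≤ 5 * a + 10 * ε + √τ := by
    rw [Real.sqrt_le_left (by positivity)]
    nlinarith [Real.sq_sqrt hτ, Real.sqrt_nonneg τ, mul_nonneg ha hε,
      mul_nonneg ha (Real.sqrt_nonneg τ), mul_nonneg hε (Real.sqrt_nonneg τ)]
  have h2 : √(U * Q) ≤ 2 + 2 * p := by
    rw [Real.sqrt_le_left (by positivity)]
    nlinarith [mul_le_mul hU hQ hQ0 zero_le_two]
  have h3 : τ ≤ √τ := by
    nlinarith [Real.sq_sqrt hτ, Real.sqrt_nonneg τ, Real.sqrt_le_one.2 hτ1]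
  have h4 : a ^ 2 ≤ a := by nlinarith
  have h5 : ε ^ 2 ≤ ε := by nlinarith
  nlinarith [mul_le_mul_of_nonneg_left h2 hε]

end Vale.Agent.P096.III.Word
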