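import Vale.Agent.P096.III.Word.Stage

/-!
# P096 III: `stmtStage`

The quantifiers: the smoothing width from `ε`, then the tolerances, then one level of the groups
serving every test element and every letter.
-/

namespace Vale.Agent.P096.III.Word

open scoped InnerProductSpace Topology
open Filter
open Vale.Agent.P082 (Alg avg)
open Vale.Agent.P132 (IsCS ModData)
open Vale.Agent.P132.Modular (conjOp)

universe u

variable {H : Type u} [NormedAddCommGroup H] [InnerProductSpace ℂ H] [CompleteSpace H]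

/-- Everything needed at one test element and one level. -/
def Good (M N : VonNeumannAlgebra H) (Ω : H) (DN : ModData N Ω) (DM : ModData M Ω)
    (G : ℕ → Finset (H →L[ℂ] H)) {m : ℕ} (f : Fin (m + 1) → H →L[ℂ] H) (η e θ₀ : ℝ)
    (d : H →L[ℂ] H) (k : ℕ) : Prop :=
  ∃ z w h' : H →L[ℂ] H, InCentre N z ∧ IsSelfAdjoint z ∧ InCentre N w ∧ IsSelfAdjoint w ∧
    w * z = 1 ∧ ‖w‖ ≤ η⁻¹ ∧ ‖z Ω‖ ^ 2 = ‖d Ω‖ ^ 2 + η ^ 2 ∧ InCentre N h' ∧ ‖h'‖ ≤ 1 ∧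
    ‖conjAvg DN G k (star d * d) Ω - z (z (h' Ω))‖ ≤ e ∧
    ∀ g ∈ M, g ∈ unitary (H →L[ℂ] H) → (∃ i, g = f i ∨ g = star (f i)) →
      ∃ m₀, InCentre M m₀ ∧ IsSelfAdjoint m₀ ∧ ‖m₀‖ ≤ 1 ∧
        ‖wavg DM G k (star (part DM g) (g (((‖z Ω‖⁻¹ : ℂ) • z) Ω))) -
          m₀ (((‖z Ω‖⁻¹ : ℂ) • z) Ω)‖ ≤ θ₀

theorem exists_good {M N : VonNeumannAlgebra H} {Ω : H} (DN : ModData N Ω) (DM : ModData M Ω)
    {G : ℕ → Finset (H →L[ℂ] H)} (hN : Grps N Ω G) (hM : Grps M Ω G)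
    (hz : ∀ z, InCentre M z ↔ InCentre N z) {m : ℕ} {f : Fin (m + 1) → H →L[ℂ] H}
    (hf : ∀ i, f i ∈ M ∧ f i ∈ unitary (H →L[ℂ] H)) {η e θ₀ : ℝ} (hη : 0 < η) (he : 0 < e)
    (hθ₀ : 0 < θ₀) {d : H →L[ℂ] H} (hd : d ∈ N.commutant) :
    ∀ᶠ k in atTop, Good M N Ω DN DM G f η e θ₀ d k := by
  obtain ⟨z, w, h', hzc, hzs, hwc, hws, hwz, hwn, hzn, hhc, hhn, hflat⟩ :=
    exists_weight DN hN hd hη
  set c := (‖z Ω‖⁻¹ : ℂ) • z with hcdef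
  have hcs : IsSelfAdjoint c := by
    show star _ = _
    rw [hcdef, star_smul, hzs.star_eq, star_inv₀, Complex.star_def, Complex.conj_ofReal]
  have hcM : InCentre M c := central_smul ((hz z).2 hzc) _
  choose a ha1 ha2 ha3 ha4 using fun i => exists_clip DM hM hcM hcs (hf i).1 (hf i).2 hθ₀
  choose b hb1 hb2 hb3 hb4 using fun i => exists_clip DM hM hcM hcs (star_mem (hf i).1)
    (Unitary.star_mem (hf i).2) hθ₀
  filter_upwards [hflat e he, eventually_all.2 ha4, eventually_all.2 hb4] with k hk hka hkb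
  refine ⟨z, w, h', hzc, hzs, hwc, hws, hwz, hwn, hzn, hhc, hhn, hk, ?_⟩
  rintro g - - ⟨i, rfl | rfl⟩
  · exact ⟨a i, ha1 i, ha2 i, ha3 i, hka i⟩
  · exact ⟨b i, hb1 i, hb2 i, hb3 i, hkb i⟩

/-- The nearest elements and the smoothed partners. -/
theorem exists_partners {M N : VonNeumannAlgebra H} {Ω : H}
    {ε Λ : ℝ} (hMN : Near M N ε) (hMN' : Near M.commutant N.commutant ε)
    (hpair : ∀ y ∈ N, ∀ y' ∈ N.commutant, ‖y‖ ≤ 1 → ‖y'‖ ≤ 1 →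
      ∃ q ∈ N.commutant, ∃ p ∈ N, ‖q‖ ≤ 1 ∧ ‖p‖ ≤ Λ ∧ q Ω = p Ω ∧
        ∀ c ∈ N, c ∈ N.commutant →
          ‖c (q Ω - y' Ω)‖ ≤ 2 * ‖c (y Ω - y' Ω)‖ + ε * ‖c Ω‖) :
    ∃ (π : (H →L[ℂ] H) → H →L[ℂ] H) (Q : (H →L[ℂ] H) → (H →L[ℂ] H) → H →L[ℂ] H),
      (∀ x ∈ M, x ∈ unitary (H →L[ℂ] H) → π x ∈ N ∧ ‖π x‖ ≤ 1 ∧ ‖π x - x‖ ≤ ε) ∧
      ∀ x ∈ M, x ∈ unitary (H →L[ℂ] H) → ∀ x' ∈ M.commutant, x' ∈ unitary (H →L[ℂ] H) →
        Q x x' ∈ N.commutant ∧ ‖Q x x'‖ ≤ 1 ∧ (∃ p ∈ N, ‖p‖ ≤ Λ ∧ Q x x' Ω = p Ω) ∧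
          ∀ c, InCentre N c → ‖c Ω‖ = 1 →
            ‖Q x x' (c Ω) - π x (c Ω)‖ ≤ 3 * ‖x (c Ω) - x' (c Ω)‖ + 7 * ε := by
  -- the nearest elements and the smoothed partners
  choose π₀ hπ₀ using fun (x : H →L[ℂ] H) (hx : x ∈ M ∧ x ∈ unitary (H →L[ℂ] H)) =>
    hMN.1 x hx.1 (norm_unitary_le hx.2)
  classical
  set π : (H →L[ℂ] H) → H →L[ℂ] H := fun x =>
    if hx : x ∈ M ∧ x ∈ unitary (H →L[ℂ] H) then π₀ x hx else 0 with hπdef
  have hπ : ∀ x ∈ M, x ∈ unitary (H →L[ℂ] H) → π x ∈ N ∧ ‖π x‖ ≤ 1 ∧ ‖π x - x‖ ≤ ε := by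
    intro x hx hxu
    obtain ⟨h1, h2, h3⟩ := hπ₀ x ⟨hx, hxu⟩
    rw [hπdef]
    simp only [hx, hxu, and_self, dite_true]
    exact ⟨h1, h2, by rwa [norm_sub_rev]⟩
  have hQ₀ : ∀ x x' : H →L[ℂ] H, ∃ q : H →L[ℂ] H, x ∈ M → x ∈ unitary (H →L[ℂ] H) →
      x' ∈ M.commutant → x' ∈ unitary (H →L[ℂ] H) →
      q ∈ N.commutant ∧ ‖q‖ ≤ 1 ∧ (∃ p ∈ N, ‖p‖ ≤ Λ ∧ q Ω = p Ω) ∧
        ∀ c, InCentre N c → ‖c Ω‖ = 1 →
          ‖q (c Ω) - π x (c Ω)‖ ≤ 3 * ‖x (c Ω) - x' (c Ω)‖ + 7 * ε := by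
    intro x x'
    by_cases hh : x ∈ M ∧ x ∈ unitary (H →L[ℂ] H) ∧ x' ∈ M.commutant ∧ x' ∈ unitary (H →L[ℂ] H)
    · obtain ⟨hx, hxu, hx', hxu'⟩ := hh
      obtain ⟨hy, hyn, hyx⟩ := hπ x hx hxu
      obtain ⟨y', hy', hy'n, hy'x⟩ := hMN'.1 x' hx' (norm_unitary_le hxu')
      obtain ⟨q, hq, p, hpN, hqn, hpn, hqe, hqc⟩ :=
        hpair (π x) hy y' hy' hyn hy'n
      refine ⟨q, fun _ _ _ _ => ⟨hq, hqn, ⟨p, hpN, hpn, hqe⟩, fun c hc hc1 => ?_⟩⟩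
      have e0 := hqc c hc.1 hc.2
      simp only [map_sub, ← comm_apply hc.1 hq, ← comm_apply hc.1 hy', comm_apply hy hc.2, hc1,
        mul_one] at e0
      have e1 : ‖π x (c Ω) - y' (c Ω)‖ ≤ ‖x (c Ω) - x' (c Ω)‖ + 2 * ε := by
        have a1 : ‖π x (c Ω) - x (c Ω)‖ ≤ ε := by
          simpa [hc1] using ContinuousLinearMap.le_of_opNorm_le (π x - x) hyx (c Ω)
        have a2 : ‖x' (c Ω) - y' (c Ω)‖ ≤ ε := by
          simpa [hc1] using ContinuousLinearMap.le_of_opNorm_le (x' - y') hy'x (c Ω)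
        have e : π x (c Ω) - y' (c Ω) =
            (π x (c Ω) - x (c Ω)) + (x (c Ω) - x' (c Ω)) + (x' (c Ω) - y' (c Ω)) := by abel
        rw [e]
        refine (norm_add₃_le).trans ?_
        linarith
      have e2 : ‖q (c Ω) - π x (c Ω)‖ ≤
          ‖q (c Ω) - y' (c Ω)‖ + ‖π x (c Ω) - y' (c Ω)‖ := by
        rw [norm_sub_rev (π x (c Ω))]
        exact norm_sub_le_norm_sub_add_norm_sub _ _ _
      linarith
    · exact ⟨0, fun a b c d => absurd ⟨a, b, c, d⟩ hh⟩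
  choose Q hQ' using hQ₀
  exact ⟨π, Q, hπ, fun x hx hxu x' hx' hxu' => hQ' x x' hx hxu hx' hxu'⟩

/-- The arithmetic of the tolerances. -/
theorem stage_arith {ε n S δ θ Λ B X Z E dn θ₀ b τ t : ℝ} (hε : 0 ≤ ε) (hε1 : ε ≤ 1)
    (hn : 0 < n) (hS : 0 ≤ S) (hδ : 0 ≤ δ) (hsmall : √n * δ ≤ 1) (hθ : 0 < θ) (hθ1 : θ ≤ 1)
    (hb : 0 ≤ b) (hτ : 0 ≤ τ) (hτ1 : τ ≤ 1) (hτt : 3 * √τ ≤ t)
    (hθ₀ : n * θ₀ = τ / 144) (hb1 : b * (Λ + 1) ^ 2 ≤ τ / 2)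
    (hb2 : b * (Λ ^ 2 * (1 + 2 * (B / θ) ^ 2)) ≤ 1) (ht : t * (B + 1) ^ 2 = θ)
    (hdB : dn ≤ B) (hdn : 0 ≤ dn) (hE : E ≤ dn / θ) (hE0 : 0 ≤ E) (hX : 0 ≤ X) (hXB : X ≤ B)
    (hZ : Z ^ 2 = X ^ 2 + θ ^ 2) :
    Z ^ 2 * (3 * ε +
      2 * √(4 * 3 ^ 2 * (n * (δ ^ 2 / 2 + 2 * θ₀)) + 2 * (7 * ε) ^ 2 + b * (Λ + 1) ^ 2) +
      (4 * 3 ^ 2 * (n * (δ ^ 2 / 2 + 2 * θ₀)) + 2 * (7 * ε) ^ 2 + b * (Λ + 1) ^ 2) +
      ε * √((1 + b * Λ ^ 2 * (1 + E ^ 2 + E ^ 2)) * (1 + S / n * (E ^ 2 + E ^ 2)))) ≤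
      128 * (ε + √n * δ) * (X + θ) ^ 2 + 128 * ε * √(S / n) * ((1 + dn) * (1 + X) ^ 2 / θ) + θ := by
  set p := √(S / n) * (dn / θ) with hp
  have hsq : E ^ 2 ≤ (dn / θ) ^ 2 := pow_le_pow_left₀ hE0 hE 2
  have hW : 4 * 3 ^ 2 * (n * (δ ^ 2 / 2 + 2 * θ₀)) + 2 * (7 * ε) ^ 2 + b * (Λ + 1) ^ 2 ≤
      18 * (√n * δ) ^ 2 + 98 * ε ^ 2 + τ := by
    rw [mul_pow √n, Real.sq_sqrt hn.le]
    linear_combination hb1 + 72 * hθ₀
  have hU : 1 + b * Λ ^ 2 * (1 + E ^ 2 + E ^ 2) ≤ 2 := by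
    have h2 : E ^ 2 ≤ (B / θ) ^ 2 := hsq.trans (by gcongr)
    nlinarith [mul_le_mul_of_nonneg_left h2 (mul_nonneg hb (sq_nonneg Λ))]
  have hQ1 : 1 + S / n * (E ^ 2 + E ^ 2) ≤ 1 + 2 * p ^ 2 := by
    rw [hp, mul_pow, Real.sq_sqrt (by positivity)]
    nlinarith [mul_le_mul_of_nonneg_left hsq (show (0 : ℝ) ≤ S / n by positivity)]
  refine (mul_le_mul_of_nonneg_left (bound_le hε hε1 (by positivity) hsmall hτ hτ1 hτt
    (by positivity) hW hU hQ1 (by positivity)) (sq_nonneg Z)).trans ?_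
  have hZ2 : Z ^ 2 ≤ (X + θ) ^ 2 := by nlinarith [mul_nonneg hX hθ.le]
  have hZ3 : Z ^ 2 ≤ (1 + X) ^ 2 := hZ2.trans (pow_le_pow_left₀ (by positivity) (by linarith) 2)
  have ht0 : 0 ≤ t := by linarith [Real.sqrt_nonneg τ]
  have hZt : Z ^ 2 * t ≤ θ := by
    have := mul_le_mul_of_nonneg_right (hZ3.trans (pow_le_pow_left₀ (by positivity)
      (by linarith : 1 + X ≤ B + 1) 2)) ht0
    linarith
  have h5 : Z ^ 2 * (128 * (ε + √n * δ)) ≤ 128 * (ε + √n * δ) * (X + θ) ^ 2 := by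
    rw [mul_comm]
    exact mul_le_mul_of_nonneg_left hZ2 (by positivity)
  have h6 : Z ^ 2 * (2 * ε * p) ≤ 128 * ε * √(S / n) * ((1 + dn) * (1 + X) ^ 2 / θ) := by
    calc Z ^ 2 * (2 * ε * p) ≤ (1 + X) ^ 2 * (128 * ε * (√(S / n) * ((1 + dn) / θ))) := by
          rw [hp]
          gcongr <;> linarith
      _ = _ := by ring
  linarith

theorem stmtStage : Iface.StmtStage.{u} := by
  refine ⟨128, 1, by norm_num, one_pos, ?_⟩
  intro H _ _ _ M N Ω F ε hp hε hε1 hMN hMN' DM S hS hSu δ hδ hδc P hP n hn θ hθ hθ1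
  have hn0 : (0 : ℝ) < n := Nat.cast_pos.2 hn
  rcases lt_or_ge 1 (√n * δ) with hbig | hsmall
  · refine ⟨0, fun x hx d _ => ?_⟩
    simp only [LinearMap.zero_apply, zero_sub, norm_neg]
    set v := (d : H →L[ℂ] H) Ω
    have h1 : ‖⟪v, (x : H →L[ℂ] H) v⟫_ℂ‖ ≤ ‖v‖ ^ 2 := (norm_inner_le_norm _ _).trans_eq
      (by rw [norm_unitary_apply (hSu _ hx).2, sq])
    have h2 : ‖v‖ ^ 2 ≤ 128 * (ε + √n * δ) * (‖v‖ + θ) ^ 2 := by
      nlinarith [mul_nonneg hε.le (sq_nonneg (‖v‖ + θ)), norm_nonneg v]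
    have h3 : 0 ≤ 128 * ε * √((S.card : ℝ) / n) *
        ((1 + ‖(d : H →L[ℂ] H)‖) * (1 + ‖v‖) ^ 2 / θ) := by positivity
    linarith
  have hN := F.grps
  have hM := hp.grps
  obtain ⟨DN⟩ := Vale.Agent.P132.Modular.stmtModular H N Ω hN.cs
  obtain ⟨Λ, hΛ, hpair⟩ := Analytic.exists_pair.{u} ε hε
  obtain ⟨π, Q, hπ, hQ⟩ := exists_partners hMN hMN' fun y hy y' hy' h1 h2 =>
    hpair H N Ω DN hN.cs y hy y' hy' h1 h2
  -- the letters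
  set m := S.card - 1
  have hm : m + 1 = S.card := Nat.sub_add_cancel hS.card_pos
  set eS := (finCongr hm).trans S.equivFin.symm
  set f : Fin (m + 1) → H →L[ℂ] H := fun i => (eS i : H →L[ℂ] H) with hfdef
  have hf : ∀ i, f i ∈ M ∧ f i ∈ unitary (H →L[ℂ] H) := fun i => hSu _ (eS i).2
  -- the tolerances
  set B := ∑ d ∈ P, ‖d‖
  have hB : 0 ≤ B := Finset.sum_nonneg fun d _ => norm_nonneg d
  set t := θ / (B + 1) ^ 2
  have ht : 0 < t := by positivity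
  set τ := min 1 ((t / 3) ^ 2)
  have hτ : 0 < τ := lt_min one_pos (by positivity)
  set θ₀ := τ / (144 * n)
  set b := min (τ / (2 * (Λ + 1) ^ 2)) (1 / (Λ ^ 2 * (1 + 2 * (B / θ) ^ 2)))
  have hb : 0 < b := lt_min (by positivity) (by positivity)
  -- one level
  have hev : ∀ᶠ k in atTop, ∀ d ∈ P, Good M N Ω DN DM F.G f θ (b * θ ^ 2) θ₀ d k :=
    (eventually_all_finset P).2 fun d hd =>
      exists_good DN DM hN hM hp.centre hf hθ (by positivity) (by positivity) (hP d hd)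
  obtain ⟨k, hk⟩ := hev.exists
  set r := (F.G k).card - 1
  have hr : r + 1 = (F.G k).card :=
    Nat.sub_add_cancel (Finset.card_pos.2 ⟨1, hN.one_mem k⟩)
  set eG := (finCongr hr).trans (F.G k).equivFin.symm
  set u : Fin (r + 1) → H →L[ℂ] H := fun i => (eG i : H →L[ℂ] H) with hudef
  set D₁ := dat DN DM u f (n - 1) π Q (Analytic.lift DN)
  refine ⟨LinearMap.mk₂ ℂ
    (fun (x : Alg M) (a : Alg N.commutant) => D₁.F (x : H →L[ℂ] H) (a : H →L[ℂ] H))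
    (fun x y a => Data.F_add_left _ _ _) (fun c x a => Data.F_smul_left _ _ _)
    (fun x a a' => Data.F_add_right _ _ _) (fun c x a => Data.F_smul_right _ _ _), ?_⟩
  intro x hx d hd
  set d₀ := (d : H →L[ℂ] H)
  have hdN : d₀ ∈ N.commutant := hP d₀ hd
  obtain ⟨z, w, h', hzc, hzs, hwc, hws, hwz, hwn, hzn, hhc, hhn, hflat, hclip⟩ := hk d₀ hd
  set Z := ‖z Ω‖
  have hZθ : θ ≤ Z := by nlinarith [norm_nonneg (z Ω), sq_nonneg ‖d₀ Ω‖]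
  have hZ : 0 < Z := hθ.trans_le hZθ
  set c := (Z⁻¹ : ℂ) • z with hcdef
  have hcs' : c = ((Z⁻¹ : ℝ) : ℂ) • z := by rw [hcdef, Complex.ofReal_inv]
  have hc : InCentre N c := central_smul hzc _
  have hcM : InCentre M c := (hp.centre c).2 hc
  have hcsa : IsSelfAdjoint c := by
    show star _ = _
    rw [hcs', star_smul, hzs.star_eq, Complex.star_def, Complex.conj_ofReal]
  have hc1 : ‖c Ω‖ = 1 := by
    rw [hcs', smul_apply, norm_smul, Complex.norm_real, norm_inv, Real.norm_eq_abs,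
      abs_of_pos hZ]
    exact inv_mul_cancel₀ hZ.ne'
  have hu : ∀ i, u i ∈ F.G k := fun i => (eG i).2
  have hok := dat_ok DN DM (n := n - 1) hN hM hu hf hπ hQ hc hcM hcsa hc1
  set D := dat DN DM u f (n - 1) π Q (liftAt DN (c Ω))
  -- the markers flatten the test element
  have hdw : d₀ * w ∈ N.commutant := mul_mem hdN hwc.2
  have hwz' : ∀ y, w (z y) = y := fun y => congrArg (fun R : H →L[ℂ] H => R y) hwz
  have hdo : (d₀ * w) (c Ω) = ((Z⁻¹ : ℝ) : ℂ) • d₀ Ω := by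
    rw [hcs', smul_apply, mul_apply_eq_comp, map_smul, map_smul, hwz']
  have hb' : Z⁻¹ * ‖w‖ * (b * θ ^ 2) ≤ b := by
    calc Z⁻¹ * ‖w‖ * (b * θ ^ 2) ≤ θ⁻¹ * θ⁻¹ * (b * θ ^ 2) := by
          gcongr
      _ = b := by field_simp
  have hfl : ∀ {v : Fin (r + 1) → H →L[ℂ] H},
      (∀ X, avg (fun i => star (v i) * X * v i) = conjAvg DN F.G k X) →
      Data.Flat N (c Ω) b v (d₀ * w) := fun hv =>
    flat_of DN hN hv hzc hwc hws hwz (inv_nonneg.2 hZ.le) hcs' hhc hhn hdN hflat hb'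
  have hflG : Data.Flat N (c Ω) b D.G (d₀ * w) := hfl fun X => by
    show avg (fun i => star (part DN (eG i : H →L[ℂ] H)) * X * part DN (eG i : H →L[ℂ] H)) = _
    rw [avg_level eG (fun g => star (part DN g) * X * part DN g)]
    rfl
  have hflG' : Data.Flat N (c Ω) b (fun i => star (D.G i)) (d₀ * w) := hfl fun X => by
    show avg (fun i => star (star (part DN (eG i : H →L[ℂ] H))) * X *
      star (part DN (eG i : H →L[ℂ] H))) = _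
    rw [avg_level eG (fun g => star (star (part DN g)) * X * star (part DN g)), ← sum_star hN k]
    simp only [star_part, star_star, conjAvg, Conj.levelAvg]
  have hJ := J_central_omega DN hN.cs hc hcsa
  have hdn : ‖(d₀ * w) (c Ω)‖ ≤ 1 := by
    rw [hdo, norm_smul, Complex.norm_real, norm_inv, Real.norm_eq_abs, abs_of_pos hZ,
      inv_mul_le_iff₀ hZ, mul_one]
    nlinarith [norm_nonneg (d₀ Ω), sq_nonneg θ]
  have htest : Data.Tests (D := D) N (c Ω) b (d₀ * w) (d₀ * w) :=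
    ⟨hdw, hdw, hdn, hdn, hflG, hflG', flat_conj DN hN.cs hJ hflG, flat_conj DN hN.cs hJ hflG'⟩
  have hcent : D.Cent M (c Ω) (δ ^ 2 / 2 + 2 * θ₀) :=
    dat_cent DN DM hM eG (fun _ => rfl) hf hcM hc1
      (fun i => (hδc _ (eS i).2 c hcM).trans_eq (by rw [hc1, mul_one])) hclip
  set i₀ := eS.symm ⟨(x : H →L[ℂ] H), hx⟩
  have hi₀ : f i₀ = (x : H →L[ℂ] H) := by rw [hfdef]; simp [i₀]
  have hest := Data.estimate hok hcent htest hε.le (by positivity) hb.le i₀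
  -- back to `Ω`
  have hsc := F_scale DN DM hN hzc ((hp.centre z).2 hzc) hzs hwc hws hwz hcs' hok
    (hSu _ hx).1 (mul_mem (star_mem hdN) hdN)
  have e1 : star (d₀ * w) * (d₀ * w) = w * w * (star d₀ * d₀) := by
    rw [star_mul, hws.star_eq, ← inCentre_comm_sa hwc (Or.inr hdN), mul_assoc,
      ← mul_assoc (star d₀), ← inCentre_comm_sa hwc (Or.inr (star_mem hdN))]
    simp only [mul_assoc]
  have hn1 : (((n - 1 : ℕ) : ℝ) + 1) = n := by exact_mod_cast Nat.sub_add_cancel hn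
  have hm1 : ((m : ℝ) + 1) = S.card := by exact_mod_cast hm
  change ‖D.F (f i₀) (star (d₀ * w) * (d₀ * w)) -
    ⟪(d₀ * w) (c Ω), f i₀ ((d₀ * w) (c Ω))⟫_ℂ‖ ≤ _ at hest
  rw [hi₀, e1, hsc, hdo, map_smul, inner_smul_left, inner_smul_right, Complex.conj_ofReal,
    ← mul_assoc, ← sq, ← mul_sub, norm_mul, norm_pow, Complex.norm_real, norm_inv,
    Real.norm_eq_abs, abs_of_pos hZ, inv_pow, inv_mul_le_iff₀ (pow_pos hZ 2)] at hest
  show ‖D₁.F (x : H →L[ℂ] H) (star d₀ * d₀) - _‖ ≤ _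
  refine hest.trans ?_
  rw [show D.n = n - 1 from rfl, show D.m = m from rfl, hn1, hm1]
  have hdB : ‖d₀‖ ≤ B := Finset.single_le_sum (fun y _ => norm_nonneg y) hd
  refine stage_arith (t := t) hε.le hε1 hn0 (Nat.cast_nonneg _) hδ hsmall hθ hθ1 hb.le hτ.le
    (min_le_left _ _) ?_ ?_ ?_ ?_ ?_ hdB (norm_nonneg _) ?_ (norm_nonneg _) (norm_nonneg _) ?_ hzn
  · have : √τ ≤ t / 3 := (Real.sqrt_le_left (by positivity)).2 (min_le_right _ _)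
    linarith
  · simp only [θ₀]
    field_simp
  · refine (mul_le_mul_of_nonneg_right (min_le_left _ _) (sq_nonneg _)).trans_eq ?_
    field_simp
  · refine (mul_le_mul_of_nonneg_right (min_le_right _ _) (by positivity)).trans_eq ?_
    field_simp
  · simp only [t]
    field_simp
  · rw [div_eq_mul_inv]
    exact (norm_mul_le _ _).trans (mul_le_mul_of_nonneg_left hwn (norm_nonneg _))
  · have := d₀.le_opNorm Ω
    rw [hN.cs.norm, mul_one] at this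
    exact this.trans hdB

end Vale.Agent.P096.III.Word
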