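import Vale.Agent.P096.III.Word.Markers
import Vale.Agent.P096.III.Word.Main

/-!
# P096 III word: weighted vectors

For `d` in the commutant the central weight `z = √(h + θ²)`, `h` the flattened `d* d`, makes the
markers flatten `d z⁻¹` at `z Ω`. The lift moves along with the vector.
-/

namespace Vale.Agent.P096.III.Word

open scoped InnerProductSpace Topology ComplexOrder
open Filter MeasureTheory
open Vale.Agent.P132 (IsCS ModData)
open Vale.Agent.P132.Modular (conjOp conjOp_apply conjOp_omega conjOp_mem star_conjOp)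
open Vale.Agent.P096.III.Analytic (lift lift_apply lift_central central_J kern integrable_kern)

universe u

variable {H : Type u} [NormedAddCommGroup H] [InnerProductSpace ℂ H] [CompleteSpace H]
  {N : VonNeumannAlgebra H} {Ω : H} (D : ModData N Ω) {G : ℕ → Finset (H →L[ℂ] H)}

theorem inCentre_comm_sa {z : H →L[ℂ] H} (hz : InCentre N z) {T : H →L[ℂ] H}
    (hT : T ∈ N ∨ T ∈ N.commutant) : z * T = T * z := by
  rcases hT with hT | hT
  · exact comm_of hT hz.2
  · exact (comm_of hz.1 hT).symm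

theorem inner_selfadjoint {z : H →L[ℂ] H} (hz : IsSelfAdjoint z) (v w : H) :
    ⟪z v, w⟫_ℂ = ⟪v, z w⟫_ℂ := by
  conv_lhs => rw [← hz.star_eq, ContinuousLinearMap.star_eq_adjoint,
    ContinuousLinearMap.adjoint_inner_left]

theorem inCentre_real {z : H →L[ℂ] H} (hz : InCentre N z) (g : ℝ → ℝ) :
    InCentre N (cfc g z) := by
  constructor
  · rw [← VonNeumannAlgebra.commutant_commutant N, VonNeumannAlgebra.mem_commutant_iff]
    intro y hy
    exact ((commute_of hz.1 hy).cfc_real g).eq.symm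
  · rw [VonNeumannAlgebra.mem_commutant_iff]
    intro y hy
    exact ((commute_of hy hz.2).symm.cfc_real g).eq.symm

/-- The weight of an element of the commutant. -/
theorem exists_weight (hG : Grps N Ω G) {d : H →L[ℂ] H} (hd : d ∈ N.commutant) {θ : ℝ}
    (hθ : 0 < θ) :
    ∃ z w h' : H →L[ℂ] H, InCentre N z ∧ IsSelfAdjoint z ∧ InCentre N w ∧ IsSelfAdjoint w ∧
      w * z = 1 ∧ ‖w‖ ≤ θ⁻¹ ∧ ‖z Ω‖ ^ 2 = ‖d Ω‖ ^ 2 + θ ^ 2 ∧ InCentre N h' ∧ ‖h'‖ ≤ 1 ∧
      ∀ e : ℝ, 0 < e → ∀ᶠ k in atTop,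
        ‖conjAvg D G k (star d * d) Ω - z (z (h' Ω))‖ ≤ e := by
  obtain ⟨h, hc, hlim, -, hmean⟩ := exists_flat D hG (mul_mem (star_mem hd) hd)
  have hnn : ∀ v, 0 ≤ ⟪v, h v⟫_ℂ := fun v => by
    refine ge_of_tendsto (hmean v v) (Eventually.of_forall fun k => ?_)
    rw [Conj.levelAvg, smul_apply, sum_apply, inner_smul_right, inner_sum]
    refine mul_nonneg (inv_nonneg.2 (Nat.cast_nonneg _)) (Finset.sum_nonneg fun g _ => ?_)
    rw [mul_apply_eq_comp, mul_apply_eq_comp, mul_apply_eq_comp,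
      ContinuousLinearMap.star_eq_adjoint (A := part D g),
      ContinuousLinearMap.adjoint_inner_right, ContinuousLinearMap.star_eq_adjoint,
      ContinuousLinearMap.adjoint_inner_right, inner_self_eq_norm_sq_to_K]
    exact pow_nonneg (Complex.zero_le_real.2 (norm_nonneg (d (part D g v)))) 2
  have hp : 0 ≤ h := by
    rw [ContinuousLinearMap.nonneg_iff_isPositive, ContinuousLinearMap.isPositive_iff_complex]
    intro v
    have h1 := Complex.nonneg_iff.1 (hnn v)
    have h2 : ⟪h v, v⟫_ℂ = starRingEnd ℂ ⟪v, h v⟫_ℂ := (inner_conj_symm _ _).symm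
    rw [h2]
    generalize ⟪v, h v⟫_ℂ = q at h1
    exact ⟨Complex.ext (by simp) (by simp [h1.2.symm]), by simpa using h1.1⟩
  have hs : IsSelfAdjoint h := .of_nonneg hp
  have hspec : ∀ t ∈ spectrum ℝ h, 0 ≤ t := fun t ht => spectrum_nonneg_of_nonneg hp ht
  have hpos : ∀ t : ℝ, 0 < |t| + θ ^ 2 := fun t => by positivity
  set z := cfc (fun t : ℝ => √(|t| + θ ^ 2)) h with hz
  set w := cfc (fun t : ℝ => (√(|t| + θ ^ 2))⁻¹) h with hw
  set h' := cfc (fun t : ℝ => t / (|t| + θ ^ 2)) h with hh'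
  have c1 : Continuous fun t : ℝ => √(|t| + θ ^ 2) := by fun_prop
  have c2 : Continuous fun t : ℝ => (√(|t| + θ ^ 2))⁻¹ :=
    c1.inv₀ fun t => (Real.sqrt_pos.2 (hpos t)).ne'
  have c3 : Continuous fun t : ℝ => t / (|t| + θ ^ 2) :=
    continuous_id.div (by fun_prop) fun t => (hpos t).ne'
  have hwz : w * z = 1 := by
    rw [hw, hz, ← cfc_mul _ _ h c2.continuousOn c1.continuousOn, ← cfc_const_one ℝ h]
    exact cfc_congr fun t _ => inv_mul_cancel₀ (Real.sqrt_pos.2 (hpos t)).ne'
  have hzz : z * z = h + cfc (fun _ => θ ^ 2) h := by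
    rw [hz, ← cfc_mul _ _ h c1.continuousOn c1.continuousOn]
    conv_rhs => arg 1; rw [← cfc_id' ℝ h hs]
    rw [← cfc_add (a := h) _ _ continuous_id'.continuousOn continuousOn_const]
    refine cfc_congr fun t ht => ?_
    rw [Real.mul_self_sqrt (hpos t).le, abs_of_nonneg (hspec t ht)]
  have c4 : Continuous fun t : ℝ => √(|t| + θ ^ 2) * (t / (|t| + θ ^ 2)) := c1.mul c3
  have hzh : z * (z * h') = h := by
    rw [hz, hh', ← cfc_mul _ _ h c1.continuousOn c3.continuousOn,
      ← cfc_mul _ _ h c1.continuousOn c4.continuousOn]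
    conv_rhs => rw [← cfc_id' ℝ h hs]
    refine cfc_congr fun t _ => ?_
    rw [← mul_assoc, Real.mul_self_sqrt (hpos t).le, mul_div_cancel₀ _ (hpos t).ne']
  refine ⟨z, w, h', inCentre_real hc _, cfc_predicate _ h, inCentre_real hc _, cfc_predicate _ h,
    hwz, ?_, ?_, inCentre_real hc _, ?_, fun e he => ?_⟩
  · refine norm_cfc_le (inv_nonneg.2 hθ.le) fun t _ => ?_
    rw [Real.norm_eq_abs, abs_inv, abs_of_nonneg (Real.sqrt_nonneg _)]
    exact inv_anti₀ hθ (Real.le_sqrt_of_sq_le (by nlinarith [abs_nonneg t]))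
  · have h1 : ⟪z Ω, z Ω⟫_ℂ = ⟪d Ω, d Ω⟫_ℂ + ((θ ^ 2 : ℝ) : ℂ) := by
      rw [inner_selfadjoint (cfc_predicate _ h), ← mul_apply_eq_comp, hzz,
        add_apply, inner_add_right, cfc_const _ h hs]
      congr 1
      · refine tendsto_nhds_unique ((tendsto_const_nhds (x := Ω)).inner (𝕜 := ℂ) hlim)
          (tendsto_const_nhds.congr fun k => ?_)
        rw [conjAvg_omega D hG k (mul_mem (star_mem hd) hd),
          inner_wavg D hG k (fun g hg => (twirl_facts D hG hg).2.1), mul_apply_eq_comp,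
          ContinuousLinearMap.star_eq_adjoint, ContinuousLinearMap.adjoint_inner_right]
      · rw [Algebra.algebraMap_eq_smul_one, smul_apply, one_apply_eq_self,
          inner_smul_right_eq_smul, inner_self_eq_norm_sq_to_K, hG.cs.norm]
        simp [Complex.real_smul]
    rw [inner_self_eq_norm_sq_to_K, inner_self_eq_norm_sq_to_K] at h1
    simpa [← Complex.ofReal_pow] using congrArg Complex.re h1
  · refine norm_cfc_le zero_le_one fun t _ => ?_
    rw [Real.norm_eq_abs, abs_div, abs_of_pos (hpos t), div_le_one (hpos t)]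
    nlinarith
  · have e1 : z (z (h' Ω)) = h Ω := congrArg (fun T : H →L[ℂ] H => T Ω) hzh
    rw [e1]
    filter_upwards [(Metric.tendsto_nhds.1 hlim) e he] with k hk
    rw [← dist_eq_norm]
    exact hk.le

/-- The lift at another vector. -/
noncomputable def liftAt (ω : H) : (H →L[ℂ] H) →ₗ[ℂ] H where
  toFun A := Vale.Agent.P132.Fixed.vint D (kern 2) (A ω + D.J (star A ω))
  map_add' A B := by
    rw [← Vale.Agent.P132.Fixed.vint_add D (integrable_kern two_pos)]
    congr 1
    simp only [add_apply, star_add, D.J_add]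
    abel
  map_smul' z A := by
    rw [RingHom.id_apply, ← Vale.Agent.P132.Fixed.vint_smul]
    congr 1
    simp [star_smul, D.J_smul]

theorem norm_liftAt_le (ω : H) (A : H →L[ℂ] H) :
    ‖liftAt D ω A‖ ≤ (‖A ω‖ + ‖star A ω‖) / 2 := by
  refine (Analytic.norm_kern_le D two_pos _).trans ?_
  gcongr
  exact (norm_add_le _ _).trans_eq (by rw [Vale.Agent.P132.Fixed.norm_J])

theorem liftAt_central (hcs : IsCS N Ω) {c : H →L[ℂ] H} (hc : InCentre N c)
    (hs : IsSelfAdjoint c) {A : H →L[ℂ] H} (h : c * A = A * c) :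
    liftAt D (c Ω) A = c (lift D A) := by
  show Vale.Agent.P132.Fixed.vint D (kern 2) _ = _
  rw [← lift_central D hcs hc.1 hc.2 h, lift_apply, star_mul, hs.star_eq, h]
  rfl

theorem J_central_omega (hcs : IsCS N Ω) {c : H →L[ℂ] H} (hc : InCentre N c)
    (hs : IsSelfAdjoint c) : D.J (c Ω) = c Ω := by
  rw [central_J D hcs hc.1 hc.2, hs.star_eq, D.J_omega]

/-- Flatness passes through `J`. -/
theorem flat_conj (hcs : IsCS N Ω) {ω : H} (hω : D.J ω = ω) {θ : ℝ} {ι : Type} [Fintype ι]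
    {v : ι → H →L[ℂ] H} {d : H →L[ℂ] H} (hf : Data.Flat N ω θ v d) :
    Data.Flat N ω θ (fun i => conjOp D (v i)) (conjOp D d) := by
  obtain ⟨h, h1, h2, h3, h4⟩ := hf
  refine ⟨conjOp D h, conjOp_mem_of_commutant D hcs h2, conjOp_mem D h1, ?_, ?_⟩
  · refine ContinuousLinearMap.opNorm_le_bound _ zero_le_one fun v => ?_
    rw [conjOp_apply, Vale.Agent.P132.Fixed.norm_J, one_mul]
    exact (norm_le_of_contr h3 _).trans_eq (Vale.Agent.P132.Fixed.norm_J D v)
  · have hsum : ∀ (s : Finset ι) (f : ι → H),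
        D.J (∑ i ∈ s, f i) = ∑ i ∈ s, D.J (f i) := fun s f => by
      classical
      induction s using Finset.induction with
      | empty => simp [Vale.Agent.P132.Fixed.J_zero]
      | insert a s ha ih => simp [Finset.sum_insert ha, D.J_add, ih]
    have e : Vale.Agent.P082.avg
        (fun i => star (conjOp D (v i)) * (star (conjOp D d) * conjOp D d) * conjOp D (v i)) ω =
        D.J (Vale.Agent.P082.avg (fun i => star (v i) * (star d * d) * v i) ω) := by
      simp only [star_conjOp, ← conjOp_mul, Vale.Agent.P082.avg, smul_apply, sum_apply, D.J_smul,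
        hsum, map_inv₀, map_natCast, conjOp_apply, hω]
    rw [e, conjOp_apply, hω, ← Vale.Agent.P132.Fixed.J_sub, Vale.Agent.P132.Fixed.norm_J]
    exact h4

end Vale.Agent.P096.III.Word
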